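import Vale.Agent.P141.H444.SysInst
import Vale.Agent.P141.H347.First1
import Vale.Agent.P141.H347.Tr3
import Vale.Agent.P141.H48.ENdefs

/-!
# P141, scale invariant version: the static payment of the scalar atoms

* `alR`: the alive cells of a region; `alv_alR`, `kl_alR`, `esl_alR`, `usl_alR`;
* `sum_pay_scalar`: `∑ |wN (atom, static companions)| ≤ 8 P · lwt (pwD 1)` from `CostR` for the
  static companions killed outside the region;
* `pay_scalar_sys`: the same for the local weights of `TSys.sys`;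
* `EnL C`: the output of (E) at the level `1` (companions locally in `L²` only); `enL_of_en`:
  from the form with two uniform slots; `pay_scalar_of_enL`: the scalar half of `Fi.Pay`.
-/

namespace Vale.Agent.P141.H444

open Finset
open Vale.Agent.P141.H315 (Grid dot)
open Vale.Agent.P141.PL (Pt el fc)
open Vale.Agent.P141.PL.H315 (le cube3 Tri put)
open Vale.Agent.P141.PL.H314 (nd Win)
open Vale.Agent.P141.PL.H571 (W)
open Vale.Agent.P141.PL.H95 (gr mem_gr card_gr shf)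
open Vale.Agent.P141.PL.H318
open Vale.Agent.P141.PL.H560 (pf)
open Vale.Agent.P141.PL.H855 (wN wN_congr)
open Vale.Agent.P141.H347 (LW cd lwt pwD pwD_sum local_costN wf_pwD)
open Vale.Agent.P141.H347.Tr (CostR Wf)
open Vale.Agent.P141.H347.Fi (Nd Pay)
open Vale.Agent.P141.H922 (wP wP_nonneg)
open Vale.Agent.P141.H782 (gb LSys LSys.S LSys.w)
open Vale.Agent.P141.H8 (Rgn En)
open Vale.Agent.P141.H48 (Alv kl ESl USl)

noncomputable section

open scoped Classical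

/-! ### The alive cells of a region -/

/-- the alive cells of a region below a cell of scale `Λ` -/
def alR (Λ : ℕ) (ud : ℕ → ℤ → Prop) (k : ℕ) (s : ℤ) : Prop := k ≤ Λ → ud k s

section region

variable {σ : ℤ} {gd ud : ℕ → ℤ → Prop} {Λ : ℕ} {x : ℤ}

theorem alv_alR (hR : Rgn (gr 7 σ) gd Λ x ud) : Alv 7 σ (alR Λ ud) where
  const k s s' h := forall_congr' fun _ => hR.const k s s' (mem_gs.2 h)
  mono k s h hk := hR.up k (by omega) s (h (by omega))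

theorem kl_alR {f : ℤ → ℝ} {k : ℕ} {s : ℤ} (h : ud k s) : kl (alR Λ ud) f k s = f s :=
  if_pos fun _ => h

theorem esl_alR {f : ℤ → ℝ} {e : ℝ} (h : En (gr 7 σ) ud f e) : ESl 7 σ (alR Λ ud) Λ e f := by
  intro k _ hk s hs
  refine (h k s (hs hk)).trans (le_of_eq ?_)
  unfold cd
  rw [show ((gr 7 σ).cube k s).card = 2 ^ (k + 7) from card_gr _ _ _ _]
  push_cast
  rfl

end region

/-! ### The payment of one atom -/

/-- **Cost of a scalar atom on a region**, static companions, from `CostR` at the scales of the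
region. -/
theorem sum_pay_scalar {σ : ℤ} {gd ud : ℕ → ℤ → Prop} {Λ : ℕ} {x : ℤ}
    (hR : Rgn (gr 7 σ) gd Λ x ud) {o : ℤ} (ho : o = 1 ∨ o = -1) (r : Fin 4) {P : ℝ} (hP : 0 ≤ P)
    {h : Fin 4 → ℤ → ℝ} (hcost : ∀ K ≤ Λ, CostR r o K P (fun K p u => wP 1 (cube3 K p) u)
      fun k _ j => kl (alR Λ ud) (h j) k) {𝒲 : Finset (ℕ × ℤ)} (hW : Nd σ ud 𝒲) {j : ℕ}
    (hj : Λ ≤ j) (m : Pt × Tri) :
    ∑ N ∈ 𝒲, |wN o (Function.update h r (a1 (fc r) j m)) N| ≤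
      8 * P * lwt (pwD 1 zero_le_one) 7 σ (fc r) j Λ x m := by
  have hb : ∀ N ∈ 𝒲, N.1 ≤ Λ ∧ le N ∈ (gr 7 σ).cube Λ x := fun N hN =>
    hR.bel _ _ (hW N hN).2.2
  have e1 : ∀ N ∈ 𝒲, wN o (Function.update h r (a1 (fc r) j m)) N =
      nd o N.1 N.2 (put r (fun l => kl (alR Λ ud) (h l) N.1) (pf (fc r) j m.1 m.2)) := by
    intro N hN
    refine (wN_congr (g := put r (fun l => kl (alR Λ ud) (h l) N.1) (pf (fc r) j m.1 m.2)) ho
      fun l y hy => ?_).trans rfl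
    unfold put
    by_cases hl : l = r
    · subst hl
      rw [Function.update_self, if_pos rfl]
      rfl
    · rw [Function.update_of_ne hl, if_neg hl]
      refine (kl_alR ?_).symm
      exact (hR.const _ _ _ ((hW N hN).2.1 hy)).2 (hW N hN).2.2
  rw [sum_congr rfl fun N hN => by rw [e1 N hN]]
  have hw : (fun K p u => ∑ y ∈ cube3 K p, (pwD 1 zero_le_one).D K y u) =
      fun K p u => wP 1 (cube3 K p) u := by
    funext K p u
    exact pwD_sum zero_le_one K p u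
  refine local_costN (pwD 1 zero_le_one) (wf_pwD zero_le_one) ho r hP hj x
    (fun k _ l => kl (alR Λ ud) (h l) k) ?_ 𝒲 (fun N hN => ⟨(hW N hN).1, (hb N hN).1⟩) ?_ m.2 m.1
  · intro K hK
    rw [hw]
    exact hcost K hK
  · intro N hN y hy
    have h1 : y ∈ (gr 7 σ).cube Λ (le N) := (gr 7 σ).sub_le (hb N hN).1 _ ((hW N hN).2.1 hy)
    have h2 := mem_gs.1 h1
    have h3 := mem_gs.1 (hb N hN).2
    rw [h2, h3]

/-- **The same for the local weights of the total systems.** -/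
theorem pay_scalar_sys {n : ℕ} {κ : Type} (t : TSys n κ) (l : ℕ) (b : Bool)
    {gd ud : ℕ → ℤ → Prop} {Λ : ℕ} {x : ℤ} (hR : Rgn (gr 7 (shf (n + 7) b)) gd Λ x ud) {o : ℤ}
    (ho : o = 1 ∨ o = -1) (r : Fin 4) {P : ℝ} (hP : 0 ≤ P) {h : Fin 4 → ℤ → ℝ}
    (hcost : ∀ K ≤ Λ, CostR r o K P (fun K p u => wP 1 (cube3 K p) u)
      fun k _ j => kl (alR Λ ud) (h j) k) {𝒲 : Finset (ℕ × ℤ)} (hW : Nd (shf (n + 7) b) ud 𝒲)
    {j : ℕ} (hj : Λ ≤ j) (m : Pt × Tri) :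
    ∑ N ∈ 𝒲, |wN o (Function.update h r ((t.sys.S l b r).a j (Sum.inl m))) N| ≤
      16 * P / t.δ l * (t.sys.w l b r).ω j Λ x (Sum.inl m) * cd (gr 7 (shf (n + 7) b)) Λ x := by
  have h1 := sum_pay_scalar hR ho r hP hcost hW hj m
  have h2 := t.whitney_le l b r j Λ x m
  have h3 := lwt_pwD (t.δ l) (t.pos l).le 7 (shf (n + 7) b) (fc r) j Λ x m
  have hd := t.pos l
  rw [h3] at h2
  have h4 : lwt (pwD 1 zero_le_one) 7 (shf (n + 7) b) (fc r) j Λ x m ≤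
      2 * (t.sys.w l b r).ω j Λ x (Sum.inl m) * cd (gb n b) Λ x / t.δ l := by
    rw [le_div_iff₀ hd, mul_comm]
    exact h2
  refine h1.trans ((mul_le_mul_of_nonneg_left h4 (by positivity)).trans (le_of_eq ?_))
  ring

/-! ### (E) at the level one -/

/-- **(E), static companions**: two uniform slots, the third only locally in `L²`; `Cε` = constant,
price `(t t')^(1/2-ε) (e e')^(1/4+ε/2) e''^(1/2)`. -/
def EnOut (C ε : ℝ) : Prop :=
  ∀ (σ : ℤ) (al : ℕ → ℤ → Prop), Alv 7 σ al → ∀ (n : ℕ) (f : Fin 4 → ℤ → ℝ) (i a b c : Fin 4),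
    [i, a, b, c].Nodup → ∀ ta ea tb eb ec : ℝ, 0 ≤ ta → ta ^ 2 ≤ ea → 0 ≤ tb → tb ^ 2 ≤ eb →
    0 ≤ ec → ESl 7 σ al n ea (f a) → USl 7 σ al n (fc a) ta (f a) → ESl 7 σ al n eb (f b) →
    USl 7 σ al n (fc b) tb (f b) → ESl 7 σ al n ec (f c) → ∀ o : ℤ, o = 1 ∨ o = -1 → ∀ K ≤ n,
    CostR i o K (C * Vale.Agent.P141.H48.prE ε ta tb ea eb ec)
      (fun K p u => wP 1 (cube3 K p) u) fun k _ j => kl al (f j) k

/-- (E) at the level `1`: all the companions only locally in `L²`. -/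
def EnL (C : ℝ) : Prop :=
  ∀ (σ : ℤ) (al : ℕ → ℤ → Prop), Alv 7 σ al → ∀ (n : ℕ) (e : ℝ), 0 ≤ e →
    ∀ (f : Fin 4 → ℤ → ℝ) (i : Fin 4), (∀ j, j ≠ i → ESl 7 σ al n e (f j)) →
    ∀ o : ℤ, o = 1 ∨ o = -1 → ∀ K ≤ n,
    CostR i o K (C * (e * √e)) (fun K p u => wP 1 (cube3 K p) u) fun k _ j => kl al (f j) k

/-- every function locally in `L²` is uniform at the level `√(2 ^ 7 e)` -/
theorem usl_of_esl {σ : ℤ} {al : ℕ → ℤ → Prop} {n : ℕ} {e : ℝ} (he : 0 ≤ e) {f : ℤ → ℝ}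
    (h : ESl 7 σ al n e f) (r : Fin 4) : USl 7 σ al n (fc r) (√(2 ^ 7 * e)) f := by
  intro k hk hkn s hs q u
  obtain ⟨h1, h2, h3⟩ := fc_ne0 r
  have h4 := Vale.Agent.P141.H628.first_lift h1 h2 h3 k (q, u) ((gr 7 σ).cube k s) f
    (L := 2 ^ 7 * e) (by positivity) (by
      have h5 := h k hk hkn s hs
      unfold dot at h5
      refine le_trans (le_of_eq (sum_congr rfl fun x _ => sq (f x))) (h5.trans (le_of_eq ?_))
      rw [pow_add]
      ring)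
  have h6 : 0 ≤ |dot ((gr 7 σ).cube k s) f (a1 (fc r) k (q, u))| := abs_nonneg _
  linarith

/-- three further faces -/
theorem exists_faces (i : Fin 4) : ∃ a b c : Fin 4, [i, a, b, c].Nodup := by
  fin_cases i
  · exact ⟨1, 2, 3, by decide⟩
  · exact ⟨0, 2, 3, by decide⟩
  · exact ⟨0, 1, 3, by decide⟩
  · exact ⟨0, 1, 2, by decide⟩

theorem costR_mono {i : Fin 4} {o : ℤ} {K : ℕ} {P P' : ℝ} {w : ℕ → Pt → Tri → ℝ}
    {h : ℕ → ℤ → Fin 4 → ℤ → ℝ} (hw : ∀ K p u, 0 ≤ w K p u) (hP : P ≤ P')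
    (hc : CostR i o K P w h) : CostR i o K P' w h := by
  intro p u
  exact (hc p u).trans (mul_le_mul_of_nonneg_right hP (hw _ _ _))

theorem esl_mono {σ : ℤ} {al : ℕ → ℤ → Prop} {n : ℕ} {e e' : ℝ} (he : e ≤ e') {f : ℤ → ℝ}
    (h : ESl 7 σ al n e f) : ESl 7 σ al n e' f := fun k hk hkn s hs =>
  (h k hk hkn s hs).trans (mul_le_mul_of_nonneg_right he (by positivity))

/-- the price at the level `1` -/
theorem prE_one {ε e : ℝ} (he : 0 ≤ e) :
    Vale.Agent.P141.H48.prE ε (√e) (√e) e e e = e * √e := by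
  unfold Vale.Agent.P141.H48.prE
  rw [Real.mul_self_sqrt he, ← Real.sqrt_eq_rpow]
  have h1 : e * e = e ^ (2 : ℝ) := by rw [Real.rpow_two, sq]
  rcases he.eq_or_lt with h0 | h0
  · subst h0
    simp
  · rw [h1, ← Real.rpow_mul he, ← Real.rpow_add h0]
    congr 1
    rw [show (1 / 2 - ε + 2 * (1 / 4 + ε / 2) : ℝ) = 1 by ring, Real.rpow_one]

/-- **(E) at the level one** from (E). -/
theorem enL_of_en {C ε : ℝ} (h : EnOut C ε) : EnL (C * (2 ^ 7 * √(2 ^ 7))) := by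
  intro σ al hal n e he f i hf o ho K hK
  obtain ⟨a, b, c, hnd⟩ := exists_faces i
  have hne : a ≠ i ∧ b ≠ i ∧ c ≠ i := by
    simp only [List.nodup_cons, List.mem_cons, List.not_mem_nil, not_or, or_false] at hnd
    exact ⟨fun h => hnd.1.1 h.symm, fun h => hnd.1.2.1 h.symm, fun h => hnd.1.2.2 h.symm⟩
  have h7 : e ≤ 2 ^ 7 * e := by linarith
  have hs : √(2 ^ 7 * e) ^ 2 ≤ 2 ^ 7 * e := (Real.sq_sqrt (by positivity)).le
  have key := h σ al hal n f i a b c hnd (√(2 ^ 7 * e)) (2 ^ 7 * e) (√(2 ^ 7 * e)) (2 ^ 7 * e)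
    (2 ^ 7 * e) (Real.sqrt_nonneg _) hs (Real.sqrt_nonneg _) hs (by positivity)
    (esl_mono h7 (hf a hne.1)) (usl_of_esl he (hf a hne.1) a) (esl_mono h7 (hf b hne.2.1))
    (usl_of_esl he (hf b hne.2.1) b) (esl_mono h7 (hf c hne.2.2)) o ho K hK
  rw [prE_one (by positivity : (0 : ℝ) ≤ 2 ^ 7 * e)] at key
  have e1 : C * (2 ^ 7 * √(2 ^ 7)) * (e * √e) = C * (2 ^ 7 * e * √(2 ^ 7 * e)) := by
    rw [Real.sqrt_mul (by norm_num : (0 : ℝ) ≤ 2 ^ 7)]
    ring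
  rw [e1]
  exact key

/-- **The scalar half of the static payment** for the total systems: one level `l`. -/
theorem pay_scalar_of_enL {C : ℝ} (hC : 0 ≤ C) (hE : EnL C) {n : ℕ} {κ : Type} (t : TSys n κ)
    (l : ℕ) (b : Bool) {o : ℤ} (ho : o = 1 ∨ o = -1) {gd : ℕ → ℤ → Prop} {CE : ℝ} (hCE : 0 ≤ CE)
    (m : Fin 4) (Λ : ℕ) (x : ℤ) (ud : ℕ → ℤ → Prop)
    (hR : Rgn (gr 7 (shf (n + 7) b)) gd Λ x ud) (h : Fin 4 → ℤ → ℝ)
    (hh : ∀ j, j ≠ m → En (gr 7 (shf (n + 7) b)) ud (h j) CE) {𝒲 : Finset (ℕ × ℤ)}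
    (hW : Nd (shf (n + 7) b) ud 𝒲) {j : ℕ} (hj : Λ ≤ j) (i : Pt × Tri) :
    ∑ N ∈ 𝒲, |wN o (Function.update h m ((t.sys.S l b m).a j (Sum.inl i))) N| ≤
      16 * (C * (CE * √CE)) / t.δ l * (t.sys.w l b m).ω j Λ x (Sum.inl i) *
        cd (gr 7 (shf (n + 7) b)) Λ x :=
  pay_scalar_sys t l b hR ho m (mul_nonneg hC (mul_nonneg hCE (Real.sqrt_nonneg _)))
    (fun K hK => hE _ _ (alv_alR hR) Λ CE hCE h m (fun j hj => esl_alR (hh j hj)) o ho K hK)
    hW hj i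

end

end Vale.Agent.P141.H444
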