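import Vale.Agent.P141.H444.FirstSys

/-!
# P141, scale invariant version: everything from (E) and the steps

`StepHyp`: total systems (levels `δ j → 0`, generic tests with glueing constant `≤ Cg` whose
weights dominate the cost with locally-`L²` companions) for which all the steps `StepB2` hold.
`topHyp2_of_stepHyp`: `StepHyp` and (E) at the level one give `TopHyp2`.
-/

namespace Vale.Agent.P141.H444

open Finset
open Vale.Agent.P141.H347 (Dat2 Root2 LevelSys2)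
open Vale.Agent.P141.H782 (gb LSys LSys.S LSys.w used)
open Vale.Agent.P141.H922 (CgP)

noncomputable section

/-- **What remains: the steps.**  `ρ`, `C`, `Cg` and the functions `D`, `Kf`, `cg` of the level are
absolute. -/
def StepHyp : Prop := ∃ (ρ C Cg : ℝ) (D Kf cg : ℕ → ℝ), 0 < ρ ∧ ρ < 1 ∧ 0 ≤ C ∧ CgP ≤ Cg ∧
  (∀ j, 0 ≤ cg j) ∧ ∀ (n : ℕ) (P : ℝ), 0 ≤ P → Root2 n P → ∃ (κ : Type) (t : TSys n κ),
    (∀ ε : ℝ, 0 < ε → ∃ J, ∀ j, J ≤ j → t.δ j ≤ ε) ∧ (∀ j, (t.δ j)⁻¹ ≤ D j) ∧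
    (∀ j, 1 ≤ t.K j ∧ t.K j ≤ Kf j) ∧ (∀ j b i, (t.P j b i).C ≤ Cg) ∧ (∀ j, GenL t j (cg j)) ∧
    ∀ f o K V 𝒩, Dat2 n f o K V 𝒩 → ∀ j, 1 ≤ j → StepB2 t.sys ρ C j (1 + P) f o K V 𝒩

/-- the constant of the bad cells and of the error may be enlarged -/
theorem firstB2_mono {n : ℕ} {ι : Type} {𝒮 : LSys n ι} {ρ C F F' : ℝ} {j0 : ℕ} {E : ℝ}
    {f : Fin 4 → ℤ → ℝ} {o : ℤ} {K : ℕ} {V : ℤ} {𝒩 : Finset (ℕ × ℤ)} (hF : F ≤ F')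
    (h : FirstB2 𝒮 ρ C F j0 E f o K V 𝒩) : FirstB2 𝒮 ρ C F' j0 E f o K V 𝒩 := by
  obtain ⟨𝒞, h1, h2⟩ := h
  exact ⟨𝒞, h1, fun b i => (h2 b i).trans
    (mul_le_mul_of_nonneg_right (add_le_add hF le_rfl) (by positivity))⟩

theorem stepB2_mono {n : ℕ} {ι : Type} {𝒮 : LSys n ι} {ρ C C' : ℝ} {j : ℕ} {E : ℝ}
    {f : Fin 4 → ℤ → ℝ} {o : ℤ} {K : ℕ} {V : ℤ} {𝒩 : Finset (ℕ × ℤ)} (hρ : 0 ≤ ρ) (hE : 0 ≤ E)
    (hC : C ≤ C') (h : StepB2 𝒮 ρ C j E f o K V 𝒩) : StepB2 𝒮 ρ C' j E f o K V 𝒩 := by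
  obtain ⟨𝒞, h1, h2⟩ := h
  have h3 := pow_nonneg hρ j
  refine ⟨𝒞, ⟨h1.cell, fun b => (h1.bad b).trans ?_⟩, fun b i => (h2 b i).trans ?_⟩
  · gcongr
  · gcongr

/-- **`TopHyp2` from (E) at the level one and the steps.** -/
theorem topHyp2_of_stepHyp {Ce : ℝ} (hCe : 0 ≤ Ce) (hE : EnL Ce) (h : StepHyp) : TopHyp2 := by
  obtain ⟨ρ, C, Cg, D, Kf, cg, hρ0, hρ1, hC, hCg, hcg, h⟩ := h
  obtain ⟨C1, hC1, hF⟩ := firstB2_sys hCe hE hCg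
  refine ⟨ρ, C + C1, fun j0 => C1 * (D j0 + cg j0) * (2 * Kf j0) ^ 2 * (ρ ^ j0)⁻¹, hρ0.le, hρ1,
    by positivity, ?_⟩
  intro j0 hj0 n P hP hroot
  obtain ⟨κ, t, h1, h2, h3, h4, h5, h6⟩ := h n P hP hroot
  refine ⟨t.δ, _, t.sys, fun j => (t.pos j).le, h1, t.scal2_sys, fun f o K V 𝒩 hd => ⟨?_, ?_⟩⟩
  · have h7 := hF n P hP hroot κ t j0 ρ hρ0 hρ1 (h3 j0).1 (h4 j0) (cg j0) (hcg j0) (h5 j0)
      f o K V 𝒩 hd (C + C1) (by linarith)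
    refine firstB2_mono ?_ h7
    have h8 := h2 j0
    have h9 : 0 < (t.δ j0)⁻¹ := inv_pos.2 (t.pos j0)
    have h10 := hcg j0
    have h11 := (h3 j0).1
    have h12 := (h3 j0).2
    show C1 * ((t.δ j0)⁻¹ + cg j0) * (2 * t.K j0) ^ 2 * (ρ ^ j0)⁻¹ ≤
      C1 * (D j0 + cg j0) * (2 * Kf j0) ^ 2 * (ρ ^ j0)⁻¹
    have h13 : 0 < (ρ ^ j0)⁻¹ := inv_pos.2 (pow_pos hρ0 _)
    have h14 : 0 ≤ D j0 + cg j0 := by linarith
    have h15 : 0 ≤ C1 * (D j0 + cg j0) := mul_nonneg hC1 h14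
    gcongr
  · intro j hj
    exact stepB2_mono hρ0.le (by linarith) (by linarith) (h6 f o K V 𝒩 hd j (hj0.trans hj))

/-- **The boundedness at `(4, 4, 4)` from (E) and the steps.** -/
theorem boundedAt_444_of_stepHyp {C ε : ℝ} (hC : 0 ≤ C) (hE : EnOut C ε) (h : StepHyp) :
    Vale.Agent.P141.BoundedAt 4 4 4 (4 / 3) :=
  boundedAt_444_of_topHyp2 (topHyp2_of_stepHyp (by positivity) (enL_of_en hE) h)

/-- the level systems from (E) and the steps -/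
theorem levelSys2_of_stepHyp {C ε : ℝ} (hC : 0 ≤ C) (hE : EnOut C ε) (h : StepHyp) :
    LevelSys2 :=
  levelSys2_of_topHyp2 (topHyp2_of_stepHyp (by positivity) (enL_of_en hE) h)

end

end Vale.Agent.P141.H444
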