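import Vale.Agent.P141.H841.Far
import Vale.Agent.P141.H48.En6

/-!
# P141, line (A): the static cut of the dense fibres

`P k z y` : the square of scale `k` around `(z, y)` is stopped; `f z y ≥ 0` with masses at most `M`
on the squares which are not stopped.

* `DD` : on the maximal stopped square around `(z, y)` the fibre of `f` at `z` has average more
  than `lam`;
* `fib` : off `DD` every fibre over a cell which is not stopped has average at most `lam`;
* `col` : the columns of `DD` on the squares which are not stopped are at most `4 M / lam`;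
* `farA`, `farA_sum` : the far multiplicity over the live scales, summed against such a function;
* `Dv`, `fib_sst`, `col_sst` : the same for the stopping `sst` of a majorant, root squares;
* `fib_sst_child`, `col_sst_child` : one scale below a square which is not stopped.
-/

namespace Vale.Agent.P141.H444.FD

open Finset
open Vale.Agent.P141.PL (iv ix mem_iv ix_ix card_iv)
open Vale.Agent.P141.H922 (iv_iv)
open Vale.Agent.P141.H841 (Nrb far)
open Vale.Agent.P141.H48 (sst ix_mono sst_congr)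

noncomputable section

open scoped Classical

/-- stopping predicates on squares -/
structure StP (K : ℕ) (P : ℕ → ℤ → ℤ → Prop) : Prop where
  congr : ∀ k, ∀ z z' y y' : ℤ, ix k z' = ix k z → ix k y' = ix k y → P k z' y' → P k z y
  mono : ∀ k < K, ∀ z y : ℤ, P (k + 1) z y → P k z y

/-- the fibre at `z` is dense on the maximal stopped square around `(z, y)` -/
def DD (K : ℕ) (P : ℕ → ℤ → ℤ → Prop) (lam : ℝ) (f : ℤ → ℤ → ℝ) (z y : ℤ) : Prop :=
  ∃ k < K, P k z y ∧ ¬ P (k + 1) z y ∧ lam * 2 ^ k < ∑ y' ∈ iv k (ix k y), f z y'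

variable {K : ℕ} {P : ℕ → ℤ → ℤ → Prop} {lam M : ℝ} {f : ℤ → ℤ → ℝ}

theorem StP.mono' (h : StP K P) {k l : ℕ} (hkl : k ≤ l) (hl : l ≤ K) {z y : ℤ} (hp : P l z y) :
    P k z y := by
  obtain ⟨d, rfl⟩ := Nat.exists_eq_add_of_le hkl
  induction d with
  | zero => exact hp
  | succ d ih =>
    exact ih (Nat.le_add_right _ _) (by omega) (h.mono (k + d) (by omega) z y (by
      rw [← add_assoc] at hp; exact hp))

theorem StP.uniq (h : StP K P) {k l : ℕ} (hk : k < K) (hl : l < K) {z y : ℤ} (h1 : P k z y)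
    (h2 : ¬ P (k + 1) z y) (h3 : P l z y) (h4 : ¬ P (l + 1) z y) : k = l := by
  rcases lt_trichotomy k l with hlt | heq | hgt
  · exact absurd (h.mono' (by omega : k + 1 ≤ l) hl.le h3) h2
  · exact heq
  · exact absurd (h.mono' (by omega : l + 1 ≤ k) hk.le h1) h4

/-- the parent cell as two cells -/
theorem sum_two (k : ℕ) (c : ℤ) (F : ℤ → ℝ) :
    ∑ y ∈ iv (k + 1) c, F y = ∑ a ∈ iv 1 c, ∑ y ∈ iv k a, F y := by
  have h := iv_iv (k := k) (K := k + 1) (Nat.le_succ k) c F
  rw [show k + 1 - k = 1 by omega] at h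
  exact h.symm

theorem ix_corner (k : ℕ) (a : ℤ) : ix k (2 ^ k * a) = a := H48.ix_corner k a

theorem ix_one_of {a c : ℤ} (h : a ∈ iv 1 c) (k : ℕ) {y : ℤ} (hy : ix k y = a) :
    ix (k + 1) y = c := by
  rw [← ix_ix, hy]
  exact mem_iv.1 h

theorem child_mem {k : ℕ} (hk : k + 1 ≤ K) {z a R : ℤ} (ha : a ∈ iv 1 (ix (k + 1) z))
    (hz : z ∈ iv K R) : 2 ^ k * a ∈ iv K R := by
  rw [mem_iv] at hz ⊢
  rw [← hz]
  exact ix_mono hk (by rw [← ix_ix k 1, ix_corner]; exact mem_iv.1 ha)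

/-- **The fibres off `DD`.** -/
theorem fib (h : StP K P) {R S : ℤ} (hf : ∀ z y, 0 ≤ f z y)
    (hM : ∀ z ∈ iv K R, ∀ y ∈ iv K S, ¬ P 0 z y → f z y ≤ M)
    (hl : M ≤ lam) (hl0 : 0 ≤ lam) : ∀ k ≤ K, ∀ z ∈ iv K R, ∀ y ∈ iv K S, ¬ P k z y →
      ∑ y' ∈ iv k (ix k y), (if DD K P lam f z y' then 0 else f z y') ≤ lam * 2 ^ k := by
  intro k
  induction k with
  | zero =>
    intro _ z hz y hy hp
    have h1 : iv 0 (ix 0 y) = {y} := by
      ext w
      rw [mem_iv, mem_singleton]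
      unfold PL.ix
      simp
    rw [h1, sum_singleton, pow_zero, mul_one]
    have h2 := hM z hz y hy hp
    split_ifs
    · exact hl0
    · linarith
  | succ k ih =>
    intro hk z hz y hy hp
    rw [sum_two]
    have h1 : ∀ a ∈ iv 1 (ix (k + 1) y),
        ∑ y' ∈ iv k a, (if DD K P lam f z y' then 0 else f z y') ≤ lam * 2 ^ k := by
      intro a ha
      by_cases hq : P k z (2 ^ k * a)
      · have key : ∀ y' ∈ iv k a, (if DD K P lam f z y' then 0 else f z y') ≤
            (if lam * 2 ^ k < ∑ w ∈ iv k a, f z w then 0 else f z y') := by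
          intro y' hy'
          have e1 : ix k y' = a := mem_iv.1 hy'
          have p1 : P k z y' := h.congr k z z y' (2 ^ k * a) rfl
            (by rw [ix_corner, e1]) hq
          have p2 : ¬ P (k + 1) z y' := fun hh => hp (h.congr (k + 1) z z y y' rfl
            (ix_one_of ha k e1) hh)
          by_cases hs : lam * 2 ^ k < ∑ w ∈ iv k a, f z w
          · have hd : DD K P lam f z y' := ⟨k, by omega, p1, p2, by rw [e1]; exact hs⟩
            rw [if_pos hd, if_pos hs]
          · rw [if_neg hs]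
            split_ifs
            · exact hf z y'
            · exact le_rfl
        refine (sum_le_sum key).trans ?_
        by_cases hs : lam * 2 ^ k < ∑ w ∈ iv k a, f z w
        · simp only [if_pos hs, sum_const_zero]
          positivity
        · simp only [if_neg hs]
          exact le_of_not_gt hs
      · have := ih (by omega) z hz (2 ^ k * a) (child_mem hk ha hy) hq
        rwa [ix_corner] at this
    refine (sum_le_sum h1).trans (le_of_eq ?_)
    rw [sum_const, card_iv, nsmul_eq_mul]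
    push_cast
    ring

/-- **The columns of `DD`.** -/
theorem col (h : StP K P) {R S : ℤ} (hf : ∀ z y, 0 ≤ f z y) (hl0 : 0 < lam) (hM0 : 0 ≤ M)
    (hM : ∀ k ≤ K, ∀ z ∈ iv K R, ∀ y ∈ iv K S, ¬ P k z y →
      ∑ z' ∈ iv k (ix k z), ∑ y' ∈ iv k (ix k y), f z' y' ≤ M * 4 ^ k) :
    ∀ k ≤ K, ∀ z ∈ iv K R, ∀ y ∈ iv K S, ¬ P k z y →
      ∑ z' ∈ iv k (ix k z), (if DD K P lam f z' y then (1 : ℝ) else 0) ≤
        4 * M / lam * 2 ^ k := by
  intro k
  induction k with
  | zero =>
    intro _ z hz y hy hp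
    have h1 : iv 0 (ix 0 z) = {z} := by
      ext w
      rw [mem_iv, mem_singleton]
      unfold PL.ix
      simp
    rw [h1, sum_singleton, pow_zero, mul_one, if_neg]
    · positivity
    · rintro ⟨k, hk, p1, _, _⟩
      exact hp (h.mono' (Nat.zero_le k) hk.le p1)
  | succ k ih =>
    intro hk z hz y hy hp
    rw [sum_two]
    have h1 : ∀ a ∈ iv 1 (ix (k + 1) z),
        ∑ z' ∈ iv k a, (if DD K P lam f z' y then (1 : ℝ) else 0) ≤ 4 * M / lam * 2 ^ k := by
      intro a ha
      by_cases hq : P k (2 ^ k * a) y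
      · have key : ∀ z' ∈ iv k a, (if DD K P lam f z' y then (1 : ℝ) else 0) ≤
            (lam * 2 ^ k)⁻¹ * ∑ y' ∈ iv k (ix k y), f z' y' := by
          intro z' hz'
          have e1 : ix k z' = a := mem_iv.1 hz'
          have p1 : P k z' y := h.congr k z' (2 ^ k * a) y y
            (by rw [ix_corner, e1]) rfl hq
          have p2 : ¬ P (k + 1) z' y := fun hh => hp (h.congr (k + 1) z z' y y
            (ix_one_of ha k e1) rfl hh)
          have hpos : 0 < lam * 2 ^ k := by positivity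
          split_ifs with hd
          · obtain ⟨l, hl, q1, q2, q3⟩ := hd
            have hkl : k = l := h.uniq (by omega) hl p1 p2 q1 q2
            subst hkl
            rw [inv_mul_eq_div, le_div_iff₀ hpos, one_mul]
            exact q3.le
          · exact mul_nonneg (inv_nonneg.2 hpos.le) (sum_nonneg fun _ _ => hf _ _)
        refine (sum_le_sum key).trans ?_
        rw [← mul_sum]
        have hsub : ∑ z' ∈ iv k a, ∑ y' ∈ iv k (ix k y), f z' y' ≤
            ∑ z' ∈ iv (k + 1) (ix (k + 1) z), ∑ y' ∈ iv (k + 1) (ix (k + 1) y), f z' y' := by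
          refine (sum_le_sum fun z' _ => sum_le_sum_of_subset_of_nonneg (t := iv (k + 1)
            (ix (k + 1) y)) ?_ fun _ _ _ => hf _ _).trans
            (sum_le_sum_of_subset_of_nonneg ?_ fun _ _ _ => sum_nonneg fun _ _ => hf _ _)
          · intro w hw
            rw [mem_iv] at hw ⊢
            exact ix_mono (Nat.le_succ k) hw
          · intro w hw
            rw [mem_iv] at hw ⊢
            rw [← ix_ix, hw]
            exact mem_iv.1 ha
        have h2 := hsub.trans (hM (k + 1) hk z hz y hy hp)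
        have hpos : 0 < (lam * 2 ^ k)⁻¹ := by positivity
        refine (mul_le_mul_of_nonneg_left h2 hpos.le).trans (le_of_eq ?_)
        have e4 : (4 : ℝ) ^ (k + 1) = 4 * (2 ^ k * 2 ^ k) := by
          rw [pow_succ, ← mul_pow]
          norm_num
          ring
        rw [e4]
        field_simp
      · have := ih (by omega) (2 ^ k * a) (child_mem hk ha hz) y hy hq
        rwa [ix_corner] at this
    refine (sum_le_sum h1).trans (le_of_eq ?_)
    rw [sum_const, card_iv, nsmul_eq_mul]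
    push_cast
    ring

/-! ### The far multiplicity over the live scales -/

/-- the far multiplicity of the point `y` over the live scales `al` -/
def farA (n L : ℕ) (b : ℕ → ℝ) (al : ℕ → ℤ → Prop) (y : ℤ) : ℝ :=
  ∑ k ∈ range (n + 1), ∑ i ∈ range n,
    if k + L ≤ i ∧ Nrb k i y ∧ al k y then 8 * ((i + 1 - k : ℕ) : ℝ) ^ 2 * b i else 0

theorem farA_nonneg (n L : ℕ) {b : ℕ → ℝ} (hb : ∀ i, 0 ≤ b i) (al : ℕ → ℤ → Prop) (y : ℤ) :
    0 ≤ farA n L b al y := by
  refine sum_nonneg fun k _ => sum_nonneg fun i _ => ?_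
  split_ifs
  · exact mul_nonneg (by positivity) (hb i)
  · exact le_rfl

/-- the strip sum of one scale -/
theorem strip {k i n : ℕ} (hki : k ≤ i) (hin : i ≤ n) {al : ℕ → ℤ → Prop} {w : ℤ → ℝ}
    (hw : ∀ y, 0 ≤ w y) {V : ℝ} (hV0 : 0 ≤ V)
    (hV : ∀ y, al k y → ∑ y' ∈ iv k (ix k y), w y' ≤ V * 2 ^ k) (R : ℤ) :
    ∑ y ∈ iv n R, (if Nrb k i y ∧ al k y then w y else 0) ≤
      2 * 2 ^ (n - i) * (V * 2 ^ k) := by
  rw [← iv_iv hin]
  have cell : ∀ q : ℤ, ∑ y ∈ iv k q, (if al k y then w y else 0) ≤ V * 2 ^ k := by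
    intro q
    by_cases h : ∃ y ∈ iv k q, al k y
    · obtain ⟨y, hy, ha⟩ := h
      refine (sum_le_sum fun y' _ => ?_).trans (by
        have := hV y ha
        rw [mem_iv.1 hy] at this
        exact this)
      split_ifs
      · exact le_rfl
      · exact hw y'
    · push Not at h
      rw [sum_eq_zero fun y hy => if_neg (h y hy)]
      positivity
  have one : ∀ c : ℤ, ∑ y ∈ iv i c, (if Nrb k i y ∧ al k y then w y else 0) ≤
      2 * (V * 2 ^ k) := by
    intro c
    have hsub : (iv i c).filter (fun y => Nrb k i y) ⊆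
        iv k (2 ^ (i - k) * c) ∪ iv k (2 ^ (i - k) * (c + 1) - 1) := by
      intro y hy
      rw [mem_filter] at hy
      obtain ⟨b1, b2⟩ := H841.ix_bd i y
      have hyc := mem_iv.1 hy.1
      rw [hyc] at b1 b2
      have h2 := hy.2
      unfold Nrb at h2
      rw [hyc] at h2
      have e2 : (2 : ℤ) ^ i = 2 ^ k * 2 ^ (i - k) := by
        rw [← pow_add]
        congr 1
        omega
      rw [mem_union]
      rcases h2 with h2 | h2
      · left
        show y ∈ Ico _ _
        rw [mem_Ico]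
        rw [e2] at b1 h2
        constructor
        · nlinarith
        · nlinarith
      · right
        show y ∈ Ico _ _
        rw [mem_Ico]
        rw [e2] at b2 h2
        constructor
        · nlinarith
        · nlinarith
    calc ∑ y ∈ iv i c, (if Nrb k i y ∧ al k y then w y else 0)
        = ∑ y ∈ (iv i c).filter (fun y => Nrb k i y), (if al k y then w y else 0) := by
          rw [sum_filter]
          refine sum_congr rfl fun y _ => ?_
          by_cases h1 : Nrb k i y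
          · simp [h1]
          · simp [h1]
      _ ≤ ∑ y ∈ iv k (2 ^ (i - k) * c) ∪ iv k (2 ^ (i - k) * (c + 1) - 1),
            (if al k y then w y else 0) :=
          sum_le_sum_of_subset_of_nonneg hsub fun y _ _ => by
            split_ifs
            · exact hw y
            · exact le_rfl
      _ ≤ ∑ y ∈ iv k (2 ^ (i - k) * c), (if al k y then w y else 0) +
            ∑ y ∈ iv k (2 ^ (i - k) * (c + 1) - 1), (if al k y then w y else 0) := by
          rw [← sum_union_inter]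
          have : 0 ≤ ∑ y ∈ iv k (2 ^ (i - k) * c) ∩ iv k (2 ^ (i - k) * (c + 1) - 1),
              (if al k y then w y else 0) := sum_nonneg fun y _ => by
            split_ifs
            · exact hw y
            · exact le_rfl
          linarith
      _ ≤ 2 * (V * 2 ^ k) := by
          have h1 := cell (2 ^ (i - k) * c)
          have h2 := cell (2 ^ (i - k) * (c + 1) - 1)
          linarith
  refine (sum_le_sum fun c _ => one c).trans (le_of_eq ?_)
  rw [sum_const, card_iv, nsmul_eq_mul]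
  push_cast
  ring

/-- **The far multiplicity against a function with small live fibres.** -/
theorem farA_sum (n L : ℕ) (R : ℤ) {b : ℕ → ℝ} (hb : ∀ i, 0 ≤ b i) {al : ℕ → ℤ → Prop}
    {w : ℤ → ℝ} (hw : ∀ y, 0 ≤ w y) {V : ℝ} (hV0 : 0 ≤ V)
    (hV : ∀ k ≤ n, ∀ y, al k y → ∑ y' ∈ iv k (ix k y), w y' ≤ V * 2 ^ k) :
    ∑ y ∈ iv n R, farA n L b al y * w y ≤
      64 * 2 ^ n * (((L : ℝ) + 2) ^ 2 + 2) / 2 ^ L * V * ∑ i ∈ range n, b i := by
  unfold farA
  have e0 : ∑ y ∈ iv n R, (∑ k ∈ range (n + 1), ∑ i ∈ range n,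
      if k + L ≤ i ∧ Nrb k i y ∧ al k y then 8 * ((i + 1 - k : ℕ) : ℝ) ^ 2 * b i else 0) * w y =
      ∑ i ∈ range n, ∑ k ∈ range (n + 1), ∑ y ∈ iv n R,
        (if k + L ≤ i ∧ Nrb k i y ∧ al k y then 8 * ((i + 1 - k : ℕ) : ℝ) ^ 2 * b i * w y
          else 0) := by
    rw [sum_comm (s := range n)]
    rw [sum_congr rfl fun k _ => sum_comm (s := range n) (t := iv n R)]
    rw [sum_comm (s := range (n + 1)) (t := iv n R)]
    refine sum_congr rfl fun y _ => ?_
    rw [sum_mul]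
    refine sum_congr rfl fun k _ => ?_
    rw [sum_mul]
    refine sum_congr rfl fun i _ => ?_
    split_ifs
    · rfl
    · rw [zero_mul]
  rw [e0, mul_sum]
  refine sum_le_sum fun i hi => ?_
  rw [mem_range] at hi
  calc ∑ k ∈ range (n + 1), ∑ y ∈ iv n R,
        (if k + L ≤ i ∧ Nrb k i y ∧ al k y then 8 * ((i + 1 - k : ℕ) : ℝ) ^ 2 * b i * w y else 0)
      ≤ ∑ k ∈ range (n + 1), (if k + L ≤ i then
          16 * 2 ^ n * V * b i * ((((i - k : ℕ) : ℝ) + 1) ^ 2 / 2 ^ (i - k)) else 0) := by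
        refine sum_le_sum fun k hk => ?_
        by_cases h : k + L ≤ i
        · simp only [h, true_and, if_true]
          have h1 := strip (k := k) (i := i) (n := n) (by omega) hi.le hw hV0
            (hV k (by rw [mem_range] at hk; omega)) R
          calc ∑ y ∈ iv n R, (if Nrb k i y ∧ al k y then
                8 * ((i + 1 - k : ℕ) : ℝ) ^ 2 * b i * w y else 0)
              = 8 * ((i + 1 - k : ℕ) : ℝ) ^ 2 * b i *
                  ∑ y ∈ iv n R, (if Nrb k i y ∧ al k y then w y else 0) := by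
                rw [mul_sum]
                refine sum_congr rfl fun y _ => ?_
                split_ifs <;> ring
            _ ≤ 8 * ((i + 1 - k : ℕ) : ℝ) ^ 2 * b i * (2 * 2 ^ (n - i) * (V * 2 ^ k)) :=
                mul_le_mul_of_nonneg_left h1 (mul_nonneg (by positivity) (hb i))
            _ = _ := by
                have e2 : i + 1 - k = i - k + 1 := by omega
                have e3 : (2 : ℝ) ^ n = 2 ^ (n - i) * 2 ^ k * 2 ^ (i - k) := by
                  rw [← pow_add, ← pow_add]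
                  congr 1
                  omega
                rw [e2, e3]
                push_cast
                field_simp
                ring
        · simp only [h, false_and, if_false, sum_const_zero, le_refl]
    _ = ∑ k ∈ (range (n + 1)).filter (fun k => k + L ≤ i),
          16 * 2 ^ n * V * b i * ((((i - k : ℕ) : ℝ) + 1) ^ 2 / 2 ^ (i - k)) :=
        (sum_filter _ _).symm
    _ ≤ ∑ m ∈ Ico L (i + 1), 16 * 2 ^ n * V * b i * (((m : ℝ) + 1) ^ 2 / 2 ^ m) := by
        have hc : 0 ≤ 16 * 2 ^ n * V * b i := mul_nonneg (by positivity) (hb i)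
        rw [← sum_image (s := (range (n + 1)).filter (fun k => k + L ≤ i))
          (g := fun k : ℕ => i - k)
          (f := fun m : ℕ => 16 * 2 ^ n * V * b i * ((((m : ℕ) : ℝ) + 1) ^ 2 / 2 ^ m))]
        · refine sum_le_sum_of_subset_of_nonneg ?_ fun m _ _ => mul_nonneg hc (by positivity)
          intro m hm
          rw [mem_image] at hm
          obtain ⟨k, hk, rfl⟩ := hm
          rw [mem_filter, mem_range] at hk
          rw [mem_Ico]
          omega
        · intro x hx z hz hxz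
          simp only [coe_filter, mem_range, Set.mem_ofPred_eq] at hx hz
          simp only at hxz
          omega
    _ ≤ 16 * 2 ^ n * V * b i * (2 * (((L : ℝ) + 2) ^ 2 + 2) / 2 ^ L) := by
        rw [← mul_sum]
        exact mul_le_mul_of_nonneg_left (H690.ser2_Ico L (i + 1))
          (mul_nonneg (by positivity) (hb i))
    _ ≤ 64 * 2 ^ n * (((L : ℝ) + 2) ^ 2 + 2) / 2 ^ L * V * b i := by
        have h0 : 0 ≤ 2 ^ n * (((L : ℝ) + 2) ^ 2 + 2) / 2 ^ L * V * b i :=
          mul_nonneg (by positivity) (hb i)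
        have e4 : 16 * 2 ^ n * V * b i * (2 * (((L : ℝ) + 2) ^ 2 + 2) / 2 ^ L) =
            32 * (2 ^ n * (((L : ℝ) + 2) ^ 2 + 2) / 2 ^ L * V * b i) := by ring
        have e5 : 64 * 2 ^ n * (((L : ℝ) + 2) ^ 2 + 2) / 2 ^ L * V * b i =
            64 * (2 ^ n * (((L : ℝ) + 2) ^ 2 + 2) / 2 ^ L * V * b i) := by ring
        rw [e4, e5]
        linarith

/-! ### The stopping of a majorant -/

/-- **The dense fibres of `v`**, stopping of the majorant `a`. -/
def Dv {κ : Type*} [Fintype κ] (Λ : ℝ) (a : ℤ × ℤ → ℝ) (K : ℕ) (lam : ℝ) (v : ℤ → ℤ → κ → ℝ)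
    (z y : ℤ) : Prop :=
  ∃ k < K, sst Λ a K k z y ∧ ¬ sst Λ a K (k + 1) z y ∧
    lam * 2 ^ k < ∑ y' ∈ iv k (ix k y), v z y' ⬝ᵥ v z y'

variable {κ : Type*} [Fintype κ] {Λ : ℝ} {a : ℤ × ℤ → ℝ} {v : ℤ → ℤ → κ → ℝ}

theorem Dv_eq (z y : ℤ) :
    Dv Λ a K lam v z y ↔ DD K (sst Λ a K) lam (fun z y => v z y ⬝ᵥ v z y) z y := Iff.rfl

theorem stP_sst (Λ : ℝ) (a : ℤ × ℤ → ℝ) (K : ℕ) : StP K (sst Λ a K) where
  congr k z z' y y' hz hy h := (sst_congr a hz hy).1 h
  mono k _ z y h := by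
    obtain ⟨m, h1, h2, h3⟩ := h
    exact ⟨m, by omega, h2, h3⟩

theorem dot_nn (w : κ → ℝ) : 0 ≤ w ⬝ᵥ w := sum_nonneg fun _ _ => mul_self_nonneg _

/-- the mass of a square which is not stopped -/
theorem mass_sst {R S : ℤ} {s : ℝ} (hΛ : 0 ≤ Λ)
    (hv : ∀ z ∈ iv K R, ∀ y ∈ iv K S, v z y ⬝ᵥ v z y ≤ a (z, y) ^ 2)
    (hs : ∀ z ∈ iv K R, ∀ y ∈ iv K S, PL.H315.A2 K a z y ≤ s) {k : ℕ} (hk : k ≤ K) {z y : ℤ}
    (hz : z ∈ iv K R) (hy : y ∈ iv K S) (h : ¬ sst Λ a K k z y) :
    ∑ z' ∈ iv k (ix k z), ∑ y' ∈ iv k (ix k y), v z' y' ⬝ᵥ v z' y' ≤ Λ * s * 4 ^ k := by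
  have h1 : PL.H315.A2 k a z y ≤ Λ * s := by
    have h2 : ¬ H48.bg Λ a K k z y := fun hb => h ⟨k, le_rfl, hk, hb⟩
    unfold H48.bg at h2
    push Not at h2
    exact h2.1.trans (mul_le_mul_of_nonneg_left (hs z hz y hy) hΛ)
  have hroot : ∀ {w c R' : ℤ}, c ∈ iv K R' → w ∈ iv k (ix k c) → w ∈ iv K R' := by
    intro w c R' hc hw
    rw [mem_iv] at hc hw ⊢
    rw [← hc]
    exact ix_mono hk hw
  have h3 : ∑ z' ∈ iv k (ix k z), ∑ y' ∈ iv k (ix k y), v z' y' ⬝ᵥ v z' y' ≤
      ∑ z' ∈ iv k (ix k z), ∑ y' ∈ iv k (ix k y), a (z', y') ^ 2 :=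
    sum_le_sum fun z' hz' => sum_le_sum fun y' hy' => hv z' (hroot hz hz') y' (hroot hy hy')
  refine h3.trans ?_
  have h4 : PL.H315.A2 k a z y =
      (4 ^ k : ℝ)⁻¹ * ∑ z' ∈ iv k (ix k z), ∑ y' ∈ iv k (ix k y), a (z', y') ^ 2 := by
    unfold PL.H315.A2 PL.H315.avg
    rw [card_product, PL.H315.card_iv, PL.H315.card_iv, sum_product]
    have e : ((2 ^ k * 2 ^ k : ℕ) : ℝ) = 4 ^ k := by
      push_cast
      rw [← mul_pow]
      norm_num
    rw [e]
    rfl
  rw [h4, inv_mul_le_iff₀ (by positivity)] at h1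
  linarith

/-- **The fibres of the cut `v`** over the squares which are not stopped. -/
theorem fib_sst {R S : ℤ} {s : ℝ} (hΛ : 0 ≤ Λ) (hl0 : 0 ≤ lam) (hl : Λ * s ≤ lam)
    (hv : ∀ z ∈ iv K R, ∀ y ∈ iv K S, v z y ⬝ᵥ v z y ≤ a (z, y) ^ 2)
    (hs : ∀ z ∈ iv K R, ∀ y ∈ iv K S, PL.H315.A2 K a z y ≤ s) :
    ∀ k ≤ K, ∀ z ∈ iv K R, ∀ y ∈ iv K S, ¬ sst Λ a K k z y →
      ∑ y' ∈ iv k (ix k y), ((if Dv Λ a K lam v z y' then 0 else v z y') ⬝ᵥ
        (if Dv Λ a K lam v z y' then 0 else v z y')) ≤ lam * 2 ^ k := by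
  intro k hk z hz y hy h
  have h1 := fib (K := K) (P := sst Λ a K) (lam := lam) (M := Λ * s)
    (f := fun z y => v z y ⬝ᵥ v z y) (stP_sst Λ a K) (R := R) (S := S)
    (fun z y => dot_nn _) ?_ hl hl0 k hk z hz y hy h
  · refine (sum_congr rfl fun y' _ => ?_).trans_le h1
    by_cases hd : Dv Λ a K lam v z y'
    · rw [if_pos hd, if_pos ((Dv_eq z y').1 hd), dotProduct_zero]
    · rw [if_neg hd, if_neg fun h' => hd ((Dv_eq z y').2 h')]
  · intro z hz y hy h0
    have h2 := mass_sst hΛ hv hs (Nat.zero_le K) hz hy h0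
    have e1 : ∀ c : ℤ, iv 0 (ix 0 c) = {c} := by
      intro c
      ext w
      rw [mem_iv, mem_singleton]
      unfold PL.ix
      simp
    rw [e1, e1, sum_singleton, sum_singleton, pow_zero, mul_one] at h2
    exact h2

/-- **The columns of the dense fibres** over the squares which are not stopped. -/
theorem col_sst {R S : ℤ} {s : ℝ} (hΛ : 0 ≤ Λ) (hs0 : 0 ≤ s) (hl0 : 0 < lam)
    (hv : ∀ z ∈ iv K R, ∀ y ∈ iv K S, v z y ⬝ᵥ v z y ≤ a (z, y) ^ 2)
    (hs : ∀ z ∈ iv K R, ∀ y ∈ iv K S, PL.H315.A2 K a z y ≤ s) :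
    ∀ k ≤ K, ∀ z ∈ iv K R, ∀ y ∈ iv K S, ¬ sst Λ a K k z y →
      ∑ z' ∈ iv k (ix k z), (if Dv Λ a K lam v z' y then (1 : ℝ) else 0) ≤
        4 * (Λ * s) / lam * 2 ^ k := by
  intro k hk z hz y hy h
  exact col (K := K) (P := sst Λ a K) (lam := lam) (M := Λ * s)
    (f := fun z y => v z y ⬝ᵥ v z y) (stP_sst Λ a K) (R := R) (S := S)
    (fun z y => dot_nn _) hl0 (mul_nonneg hΛ hs0)
    (fun k hk z hz y hy h => mass_sst hΛ hv hs hk hz hy h) k hk z hz y hy h

/-- the columns of the dense fibres one scale below a square which is not stopped -/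
theorem col_sst_child {R S : ℤ} {s : ℝ} (hΛ : 0 ≤ Λ) (hs0 : 0 ≤ s) (hl0 : 0 < lam)
    (hv : ∀ z ∈ iv K R, ∀ y ∈ iv K S, v z y ⬝ᵥ v z y ≤ a (z, y) ^ 2)
    (hs : ∀ z ∈ iv K R, ∀ y ∈ iv K S, PL.H315.A2 K a z y ≤ s) :
    ∀ k < K, ∀ z ∈ iv K R, ∀ y ∈ iv K S, ¬ sst Λ a K (k + 1) z y →
      ∑ z' ∈ iv k (ix k z), (if Dv Λ a K lam v z' y then (1 : ℝ) else 0) ≤
        8 * (Λ * s) / lam * 2 ^ k := by
  intro k hk z hz y hy h
  refine (sum_le_sum_of_subset_of_nonneg (t := iv (k + 1) (ix (k + 1) z)) ?_ fun _ _ _ => by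
    split_ifs <;> norm_num).trans
    ((col_sst hΛ hs0 hl0 hv hs (k + 1) hk z hz y hy h).trans (le_of_eq ?_))
  · intro w hw
    rw [mem_iv] at hw ⊢
    exact ix_mono (Nat.le_succ k) hw
  · rw [pow_succ]
    ring

/-- the fibres one scale below a square which is not stopped -/
theorem fib_sst_child {R S : ℤ} {s : ℝ} (hΛ : 0 ≤ Λ) (hl0 : 0 ≤ lam) (hl : Λ * s ≤ lam)
    (hv : ∀ z ∈ iv K R, ∀ y ∈ iv K S, v z y ⬝ᵥ v z y ≤ a (z, y) ^ 2)
    (hs : ∀ z ∈ iv K R, ∀ y ∈ iv K S, PL.H315.A2 K a z y ≤ s) :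
    ∀ k < K, ∀ z ∈ iv K R, ∀ y ∈ iv K S, ¬ sst Λ a K (k + 1) z y →
      ∑ y' ∈ iv k (ix k y), ((if Dv Λ a K lam v z y' then 0 else v z y') ⬝ᵥ
        (if Dv Λ a K lam v z y' then 0 else v z y')) ≤ 2 * lam * 2 ^ k := by
  intro k hk z hz y hy h
  refine (sum_le_sum_of_subset_of_nonneg (t := iv (k + 1) (ix (k + 1) y)) ?_ fun _ _ _ =>
    dot_nn _).trans ((fib_sst hΛ hl0 hl hv hs (k + 1) hk z hz y hy h).trans (le_of_eq ?_))
  · intro w hw
    rw [mem_iv] at hw ⊢
    exact ix_mono (Nat.le_succ k) hw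
  · rw [pow_succ]
    ring

end

end Vale.Agent.P141.H444.FD
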