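import Vale.Agent.P141.H444.TopP
import Vale.Agent.P141.H347.TrD
import Vale.Agent.P141.H628.Birth
import Vale.Agent.P141.PL.H855.Dig0

/-!
# P141, scale invariant version: the system of the level process

* `lwP`: the Whitney local weights of the pair system, `lwP_ω`;
* `l2Bd_sum`, `l2Bd_psys`: `L²` bounds of the tests for sums and for packed systems;
* `TSys`: data of the generic (packed) tests of all levels, types, slots;
* `TSys.sys : LSys n (Pt × Tri ⊕ κ)`: the total systems with the local weights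
  `(Whitney + packed).mix (lw2 ..)`; `scal2_sys`, `l2W_sys`, `mix_sys`, `l2Bd_sys`.
-/

namespace Vale.Agent.P141.H444

open Finset
open Vale.Agent.P141.H315 (Grid dot dot_self_nonneg)
open Vale.Agent.P141.PL (Pt el fc)
open Vale.Agent.P141.PL.H315 (cube3 Tri)
open Vale.Agent.P141.PL.H95 (gr mem_gr card_gr shf)
open Vale.Agent.P141.PL.H318
open Vale.Agent.P141.PL.H855 (L2W)
open Vale.Agent.P141.H347 (LW cd lwD lwt pwD pwD_sum L2Bd lw2 l2W_mix csz_fc_le)
open Vale.Agent.P141.H736 (sumS sumLW PSys dot_zero_right)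
open Vale.Agent.P141.H782 (gb LSys LSys.S LSys.w)
open Vale.Agent.P141.H922 (wP wP_nonneg sysP sysPT lwPT mix_sysPT unifPT unifPT_gen CgP)
open Vale.Agent.P141.H297 (Mix)

noncomputable section

open scoped Classical

/-- **The Whitney local weights of the pair system.** -/
def lwP (c0 : ℕ) (σ : ℤ) (c : Pt) (hc : csz c ≤ 2 ^ c0) (δ : ℝ) (hδ : 0 < δ) :
    LW (sysP c0 σ c hc δ hδ) :=
  lwD (pwD δ hδ.le) c0 σ c (sysP c0 σ c hc δ hδ) fun j _ i => (pwD_sum hδ.le j i.1 i.2).le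

theorem lwP_ω {c0 : ℕ} {σ : ℤ} {c : Pt} (hc : csz c ≤ 2 ^ c0) {δ : ℝ} (hδ : 0 < δ) (j k : ℕ)
    (s : ℤ) (i : Pt × Tri) :
    (lwP c0 σ c hc δ hδ).ω j k s i * cd (gr c0 σ) k s = lwt (pwD δ hδ.le) c0 σ c j k s i := by
  have h2 : (0 : ℝ) < ((gr c0 σ).cube k s).card := by
    exact_mod_cast card_pos.mpr ⟨_, (gr c0 σ).mem _ _⟩
  show lwt (pwD δ hδ.le) c0 σ c j k s i / cd (gr c0 σ) k s * cd (gr c0 σ) k s = _
  unfold cd
  exact div_mul_cancel₀ _ h2.ne'

/-- the density is linear in `δ` -/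
theorem lwt_pwD (δ : ℝ) (hδ : 0 ≤ δ) (c0 : ℕ) (σ : ℤ) (c : Pt) (j k : ℕ) (s : ℤ) (i : Pt × Tri) :
    lwt (pwD δ hδ) c0 σ c j k s i = δ * lwt (pwD 1 zero_le_one) c0 σ c j k s i := by
  unfold lwt pwD
  rw [mul_sum]
  refine sum_congr rfl fun y _ => ?_
  split_ifs
  · simp only [one_mul]
  · rw [mul_zero]

/-! ### `L²` bounds of the tests -/

section abs

variable {X ι κ : Type*} {g : Grid X}

theorem l2Bd_mono {S : CSys g ι} {K K' : ℝ} (hK : 0 ≤ K) (h : K ≤ K') (hS : L2Bd S K) :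
    L2Bd S K' := fun k x i =>
  (hS k x i).trans (pow_le_pow_left₀ (mul_nonneg hK (S.W_nonneg _ _ _))
    (mul_le_mul_of_nonneg_right h (S.W_nonneg _ _ _)) 2)

theorem l2Bd_sum {S : CSys g ι} {S' : CSys g κ} {K : ℝ} (h : L2Bd S K) (h' : L2Bd S' K) :
    L2Bd (sumS S S') K := by
  rintro k x (i | i)
  · exact h k x i
  · exact h' k x i

theorem l2Bd_psys {P : PSys g ι} {K : ℝ} (h : ∀ k x i, P.live k i →
    dot (g.cube k x) (P.ψ i) (P.ψ i) * (g.cube k x).card ≤ (K * P.W k (g.cube k x) i) ^ 2) :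
    L2Bd P.toC K := by
  intro k x i
  rw [P.toC_a]
  split_ifs with hl
  · exact h k x i hl
  · rw [dot_zero_right, zero_mul]
    exact sq_nonneg _

end abs

/-! ### The systems of the level process -/

theorem csz_fc_7 (r : Fin 4) : csz (fc r) ≤ 2 ^ 7 := (csz_fc_le r).trans (by norm_num)

theorem fc_ne0 (r : Fin 4) : (fc r).1 ≠ 0 ∧ (fc r).2.1 ≠ 0 ∧ (fc r).2.2 ≠ 0 := by
  fin_cases r <;> decide

/-- **The data of the total systems**: levels `δ j`, packed (generic) tests `P j b i`, constants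
`K j` of their `L²` norms. -/
structure TDat (G : Bool → Grid ℤ) (κ : Type) where
  δ : ℕ → ℝ
  pos : ∀ j, 0 < δ j
  P : ∀ (_ : ℕ) (b : Bool) (_ : Fin 4), PSys (G b) κ
  K : ℕ → ℝ
  le : ∀ j, 2 ^ 7 / δ j ≤ K j
  l2 : ∀ j b i k x m, (P j b i).live k m →
    dot ((G b).cube k x) ((P j b i).ψ m) ((P j b i).ψ m) * ((G b).cube k x).card ≤
      (K j * (P j b i).W k ((G b).cube k x) m) ^ 2

/-- the data of the total systems on the grids of the level process -/
abbrev TSys (n : ℕ) (κ : Type) : Type := TDat (fun b => gb n b) κ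

namespace TDat

variable {n : ℕ} {κ : Type} (t : TSys n κ)

theorem K_pos (j : ℕ) : 0 < t.K j :=
  lt_of_lt_of_le (div_pos (by norm_num) (t.pos j)) (t.le j)

/-- the total system of the level `j`, the type `b`, the slot `i` -/
def tot (j : ℕ) (b : Bool) (i : Fin 4) : CSys (gb n b) ((Pt × Tri) ⊕ κ) :=
  sysPT 7 (shf (n + 7) b) (fc i) (csz_fc_7 i) (t.δ j) (t.pos j) (t.P j b i)

theorem l2Bd_tot (j : ℕ) (b : Bool) (i : Fin 4) : L2Bd (t.tot j b i) (t.K j) := by
  obtain ⟨h1, h2, h3⟩ := fc_ne0 i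
  refine l2Bd_sum ?_ (l2Bd_psys (t.l2 j b i))
  exact l2Bd_mono (div_pos (by norm_num) (t.pos j)).le (t.le j)
    (Vale.Agent.P141.H628.l2Bd_sysP 7 (shf (n + 7) b) (fc i) (csz_fc_7 i) (t.δ j) (t.pos j)
      h1 h2 h3)

/-- the first part of the local weights: Whitney and packed -/
def lw0 (j : ℕ) (b : Bool) (i : Fin 4) : LW (t.tot j b i) :=
  lwPT 7 (shf (n + 7) b) (fc i) (csz_fc_7 i) (t.δ j) (t.pos j)
    (lwP 7 (shf (n + 7) b) (fc i) (csz_fc_7 i) (t.δ j) (t.pos j)) (t.P j b i)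

/-- the local weights -/
def lw (j : ℕ) (b : Bool) (i : Fin 4) : LW (t.tot j b i) :=
  (t.lw0 j b i).mix (lw2 (t.tot j b i) (t.K_pos j) (t.l2Bd_tot j b i))

/-- **The systems of the level process.** -/
def sys : LSys n ((Pt × Tri) ⊕ κ) := fun j b i => ⟨t.tot j b i, t.lw j b i⟩

@[simp] theorem sys_S (j : ℕ) (b : Bool) (i : Fin 4) : t.sys.S j b i = t.tot j b i := rfl

@[simp] theorem sys_w (j : ℕ) (b : Bool) (i : Fin 4) : t.sys.w j b i = t.lw j b i := rfl

/-- **scalar uniformity** -/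
theorem scal2_sys : Scal2 t.sys t.δ := fun j b i k _ _ _ h s =>
  unifPT 7 (shf (n + 7) b) (fc i) (csz_fc_7 i) (t.δ j) (t.pos j) (t.P j b i) (k := k) h s.1 s.2

/-- **generic uniformity** -/
theorem gen_sys {j : ℕ} {b : Bool} {i : Fin 4} {k : ℕ} {Q : Finset ℤ} {F : ℤ → ℝ}
    (h : ∀ m, |dot Q F ((t.sys.S j b i).a k m)| ≤ (t.sys.S j b i).W k Q m) (m : κ)
    (hm : (t.P j b i).live k m) : |dot Q F ((t.P j b i).ψ m)| ≤ (t.P j b i).W k Q m :=
  unifPT_gen 7 (shf (n + 7) b) (fc i) (csz_fc_7 i) (t.δ j) (t.pos j) (t.P j b i) h m hm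

/-- **mixed inheritance** -/
theorem mix_sys {C : ℝ} (hC : CgP ≤ C) {j : ℕ} {b : Bool} {i : Fin 4} (hP : (t.P j b i).C ≤ C) :
    Mix (t.sys.S j b i) C :=
  mix_sysPT 7 (shf (n + 7) b) (fc i) (csz_fc_7 i) (t.δ j) (t.pos j) (t.P j b i) hC hP

/-- **the `L²` average of an atom on a cell**: 855's `L2W` -/
theorem l2W_sys (j : ℕ) (b : Bool) (i : Fin 4) : L2W (t.sys.w j b i) (2 * t.K j) :=
  fun j' k x m _ => l2W_mix (t.K_pos j) (t.l2Bd_tot j b i) (t.lw0 j b i) j' k x m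

/-- the Whitney weight of a scalar atom is at most twice its local weight -/
theorem whitney_le (j : ℕ) (b : Bool) (i : Fin 4) (j' k : ℕ) (x : ℤ) (m : Pt × Tri) :
    lwt (pwD (t.δ j) (t.pos j).le) 7 (shf (n + 7) b) (fc i) j' k x m ≤
      2 * (t.sys.w j b i).ω j' k x (Sum.inl m) * cd (gb n b) k x := by
  have h1 := (t.lw0 j b i).le_mix_left (lw2 (t.tot j b i) (t.K_pos j) (t.l2Bd_tot j b i)) j' k x
    (Sum.inl m)
  have h2 := lwP_ω (c0 := 7) (σ := shf (n + 7) b) (csz_fc_7 i) (t.pos j) j' k x m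
  rw [← h2]
  exact mul_le_mul_of_nonneg_right h1 (Nat.cast_nonneg _)

/-- the packed weight of a generic atom is at most twice its local weight -/
theorem packed_le (j : ℕ) (b : Bool) (i : Fin 4) (j' k : ℕ) (x : ℤ) (m : κ) :
    (t.P j b i).W k ((gb n b).cube k x) m ≤
      2 * (t.P j b i).C * (t.sys.w j b i).ω j' k x (Sum.inr m) * cd (gb n b) k x := by
  have h1 := (t.lw0 j b i).le_mix_left (lw2 (t.tot j b i) (t.K_pos j) (t.l2Bd_tot j b i)) j' k x
    (Sum.inr m)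
  have h2 : (t.lw0 j b i).ω j' k x (Sum.inr m) = (t.P j b i).W k ((gb n b).cube k x) m /
      (((gb n b).cube k x).card * (t.P j b i).C) := rfl
  have hC : 0 < (t.P j b i).C := zero_lt_one.trans_le (t.P j b i).one_le
  have hc : (0 : ℝ) < ((gb n b).cube k x).card := by
    exact_mod_cast card_pos.mpr ⟨_, (gb n b).mem _ _⟩
  rw [h2, div_le_iff₀ (mul_pos hc hC)] at h1
  refine h1.trans (le_of_eq ?_)
  unfold cd
  simp only [sys_w, lw]
  ring

end TDat

/-- the systems without generic tests, levels `2 ^ (-j)` -/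
def sys0 (n : ℕ) : LSys n ((Pt × Tri) ⊕ Empty) :=
  TDat.sys (n := n)
    { δ := fun j => (2 ^ j)⁻¹
      pos := fun j => by positivity
      P := fun _ b _ =>
        { ψ := fun i => i.elim
          live := fun _ i => i.elim
          live_mono := fun _ _ i => i.elim
          W := fun _ _ i => i.elim
          W_nonneg := fun _ _ i => i.elim
          nondeg := fun _ _ => ⟨1, one_pos, fun i => i.elim⟩
          C := 1
          one_le := le_rfl
          pack := fun _ _ i => i.elim }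
      K := fun j => 2 ^ 7 * 2 ^ j
      le := fun j => by rw [div_inv_eq_mul]
      l2 := fun _ _ _ _ _ m => m.elim }

end

end Vale.Agent.P141.H444
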