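import Vale.Agent.P141.H444.CEProp

/-!
# P141, scale invariant version: END in the form of `LevIn`

`endS_of`: from `EndStmT` (any energy `≤ A1 2 ^ (-B j)`, any packing) to the number of rounds `nR`
and the line `endS` of `LevIn`.
-/

namespace Vale.Agent.P141.H444

open Finset
open Vale.Agent.P141.H315 (Grid dot)
open Vale.Agent.P141.PL.H318
open Vale.Agent.P141.PL.H855 (N4 EndStm EndIn cCk cE0)
open Vale.Agent.P141.H347 (LW Dat2 Root2)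
open Vale.Agent.P141.H347.Gs (Ex)
open Vale.Agent.P141.H782 (gb LSys LSys.S LSys.w used)
open Vale.Agent.P141.H8 (Rgn En Un K1 MM)
open Vale.Agent.P141.H379 (nvF)

noncomputable section

section mono

variable {X ι κ α : Type*} {g : Grid X} {nv : N4 g α} {gd : ℕ → X → Prop} {L : ℕ}
  {S S' : Fin 4 → CSys g ι} {w : ∀ m, LW (S m)} {w' : ∀ m, LW (S' m)} {U : Fin 4 → CSys g κ}

theorem endIn_mono {Λ : ℕ} {x : X} {ud : ℕ → X → Prop} {i a : Fin 4} {M C C' e0 : ℝ}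
    {P G1 : X → ℝ} (hC : C ≤ C') (he : 0 ≤ e0) (h : EndIn w w' U L Λ x ud i a M C e0 P G1) :
    EndIn w w' U L Λ x ud i a M C' e0 P G1 := by
  have hcd : ∀ k y, 0 ≤ Vale.Agent.P141.H347.cd g k y := fun k y => Nat.cast_nonneg _
  have hen : ∀ {F : X → ℝ} {c c' : ℝ}, c ≤ c' → En g ud F c → En g ud F c' := fun hc hF k y hy =>
    (hF k y hy).trans (mul_le_mul_of_nonneg_right hc (hcd k y))
  have hun : ∀ {m : Fin 4} {F : X → ℝ}, Un (U m) C ud F → Un (U m) C' ud F := fun hF k y hy i =>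
    (hF k y hy i).trans (mul_le_mul_of_nonneg_right hC ((U _).W_nonneg _ _ _))
  obtain ⟨GP, D, h1, h2, h3, h4⟩ := h.gp
  exact ⟨h.at_, ⟨GP, D, h1, hun h2, hen hC h3, hen (mul_le_mul_of_nonneg_right hC he) h4⟩,
    hun h.unG, hen hC h.enG⟩

/-- the constant of the companions may be reduced, the conclusion enlarged -/
theorem endStm_mono {M C C' e0 e K c c' : ℝ} (hC : C ≤ C') (he : 0 ≤ e0) (hc : c ≤ c')
    (h : EndStm nv gd L w w' U M C' e0 e K c) : EndStm nv gd L w w' U M C e0 e K c' := by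
  intro σ Λ x ud hΛ hR hx P G1 hin t F hF
  refine (h σ Λ x ud hΛ hR hx P G1 (endIn_mono hC he hin) t F hF).trans ?_
  exact mul_le_mul_of_nonneg_right hc (Nat.cast_nonneg _)

end mono

/-- **The line `endS` of `LevIn`** from `EndStmT`. -/
theorem endS_of (h : EndStmT) (e : Ex) (he : 0 < e.g) {κ c : ℝ} (hκ : 0 < κ) (hκ1 : κ ≤ 1)
    (hc : 0 < c) {Cg C0 : ℝ} (hCg : 0 ≤ Cg) :
    ∃ (nR : ℕ) (A eE : ℝ), 0 ≤ A ∧ 0 < eE ∧ ∀ (n : ℕ) (P : ℝ), 0 ≤ P → Root2 n P →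
      ∀ f o K V 𝒩 (hd : Dat2 n f o K V 𝒩), ∀ j : ℕ, 1 ≤ j → ∀ b, ∀ K' : ℝ, 1 ≤ K' →
      cE0 Cg * 2 ^ (-(κ * (j : ℝ))) * (K1 2 Cg * 2 ^ (-(c * (j : ℝ)))) ^ nR * K' ≤
        cE0 Cg * 2 ^ (-(κ * (j : ℝ))) * (K1 2 Cg * MM 2) ^ nR →
      EndStm (nvF hd b ∅) (used n K V f b) K (fun m => (e.T n).sys.w j b m)
        (fun m => (e.T n).sys.w (j + 1) b m) ((e.T n).sys.S j b) (16 * 4 + 2 ^ (-(κ * (j : ℝ))))
        (cCk Cg C0) (2 ^ (-(κ * (j : ℝ))))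
        (cE0 Cg * 2 ^ (-(κ * (j : ℝ))) * (K1 2 Cg * 2 ^ (-(c * (j : ℝ)))) ^ nR) K'
        (A * 2 ^ (-((κ + eE) * (j : ℝ))) * (1 + P)) := by
  obtain ⟨B, eE, hB, heE, h⟩ := h e κ he hκ hκ1
  obtain ⟨nR, hnR⟩ := exists_nat_ge (B / c)
  have hnR' : B ≤ κ + c * nR := by
    have h1 : B ≤ nR * c := (div_le_iff₀ hc).1 hnR
    linarith
  have hE0 : 0 < cE0 Cg := by
    unfold Vale.Agent.P141.PL.H855.cE0 Vale.Agent.P141.PL.H855.cC2
    positivity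
  have hK1 : 0 < K1 2 Cg := by
    unfold K1
    positivity
  have hMM : 0 < MM 2 := by
    unfold MM
    positivity
  set A1 : ℝ := max (cCk Cg C0) 0 + cE0 Cg * K1 2 Cg ^ nR + cE0 Cg * (K1 2 Cg * MM 2) ^ nR with hA1
  have a0 : 0 ≤ max (cCk Cg C0) 0 := le_max_right _ _
  have a1 : 0 < cE0 Cg * K1 2 Cg ^ nR := by positivity
  have a2 : 0 < cE0 Cg * (K1 2 Cg * MM 2) ^ nR := by positivity
  obtain ⟨A2, hA2, h⟩ := h A1 (by linarith)
  refine ⟨nR, A2, eE, hA2, heE, ?_⟩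
  intro n P hP hroot f o K V 𝒩 hd j hj b K' hK' hen
  have hp : (0 : ℝ) < 2 ^ (-(κ * (j : ℝ))) := Real.rpow_pos_of_pos two_pos _
  have hq : (0 : ℝ) < 2 ^ (-(c * (j : ℝ))) := Real.rpow_pos_of_pos two_pos _
  have e1 : cE0 Cg * 2 ^ (-(κ * (j : ℝ))) * (K1 2 Cg * 2 ^ (-(c * (j : ℝ)))) ^ nR =
      cE0 Cg * K1 2 Cg ^ nR * 2 ^ (-((κ + c * nR) * (j : ℝ))) := by
    rw [mul_pow, ← Real.rpow_natCast (2 ^ (-(c * (j : ℝ)))) nR, ← Real.rpow_mul two_pos.le]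
    have e2 : (2 : ℝ) ^ (-((κ + c * nR) * (j : ℝ))) =
        2 ^ (-(κ * (j : ℝ))) * 2 ^ (-(c * (j : ℝ)) * (nR : ℝ)) := by
      rw [← Real.rpow_add two_pos]
      congr 1
      ring
    rw [e2]
    ring
  have key := h n P hP hroot f o K V 𝒩 hd j hj b
    (cE0 Cg * 2 ^ (-(κ * (j : ℝ))) * (K1 2 Cg * 2 ^ (-(c * (j : ℝ)))) ^ nR) K' (by positivity)
    (by
      rw [e1]
      have h3 : (2 : ℝ) ^ (-((κ + c * nR) * (j : ℝ))) ≤ 2 ^ (-(B * (j : ℝ))) :=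
        Real.rpow_le_rpow_of_exponent_le one_le_two
          (neg_le_neg (mul_le_mul_of_nonneg_right hnR' (Nat.cast_nonneg j)))
      have h4 : (0 : ℝ) < 2 ^ (-((κ + c * nR) * (j : ℝ))) := Real.rpow_pos_of_pos two_pos _
      refine mul_le_mul ?_ h3 h4.le (by linarith)
      linarith)
    hK'
    (by
      refine hen.trans ?_
      have h5 : cE0 Cg * 2 ^ (-(κ * (j : ℝ))) * (K1 2 Cg * MM 2) ^ nR =
          cE0 Cg * (K1 2 Cg * MM 2) ^ nR * 2 ^ (-(κ * (j : ℝ))) := by ring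
      rw [h5]
      refine mul_le_mul_of_nonneg_right ?_ hp.le
      linarith)
  exact endStm_mono (by
    have := le_max_left (cCk Cg C0) 0
    linarith) hp.le le_rfl key

end

end Vale.Agent.P141.H444
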