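import Vale.Agent.P141.H444.LimP
import Vale.Agent.P141.H782.Top3
import Vale.Agent.P141.H347.Boot2

/-!
# P141, scale invariant version: level systems from paths on the cells (no heights)

* `LvPaths2`, `lvSys2_of_paths`: the level system `LvSys2` of `H347.Boot2` from paths on the cells;
* `Scal2`: the systems contain the scalar tests of the pair weight `wP (δ j)` at the scales `≤ n`;
* `lp_unif2`, `lp_energy`: the residuals `lp` are uniform, their local energy is at most `2 ^ 12`;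
* `FirstB2`, `StepB2`, `TopHyp2`: what the level step has to deliver;
* `levelSys2_of_topHyp2`, `boundedAt_444_of_topHyp2`.
-/

namespace Vale.Agent.P141.H444

open Finset
open Vale.Agent.P141.H315 (Grid dot)
open Vale.Agent.P141.PL (Pt el fc lift Bx iv)
open Vale.Agent.P141.PL.H315 (le cube3 Tri atm)
open Vale.Agent.P141.PL.H314 (nd Win nd_congr)
open Vale.Agent.P141.PL.H571 (W)
open Vale.Agent.P141.PL.H318 (CSys T T_unif a1)
open Vale.Agent.P141.PL.H95 (gr gr_cube mem_gr card_gr W_sub mem_W shf Al Al_congr rst al_window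
  cube_eq_of_mem)
open Vale.Agent.P141.PL.H855 (Bel Bad wN gd gdU mem_gd mem_gdU)
open Vale.Agent.P141.H347 (LW Hyp Pth pV pH pR pM exists_pth cd Dat2 Root2 LvSys2 LevelSys2)
open Vale.Agent.P141.H782 (nbr bn bn_sub sum_bn not_bad_bn rl abs_nd_tele Typ ty typ_ty Fre gdN
  mem_gdN bdN bn_sub_bdN fre_of_not_bad gb used used_congr hyp_used le_mem_W LSys LSys.S LSys.w lp
  pth_lp lp_energy frN mem_frN BadC)
open Vale.Agent.P141.H922 (wP wP_nonneg)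

noncomputable section

/-- **The paths of all the levels on the cells** (no heights).  `R j b i k` = residual function of
the level `j`, the type `b`, the slot `i` at the scale `k`; `𝒞 j b` = bad cells; `δ j` = level of
uniformity of the slot `0` in the pair weight. -/
structure LvPaths2 (ρ C F : ℝ) (j0 n : ℕ) (E : ℝ) (δ : ℕ → ℝ) (f : Fin 4 → ℤ → ℝ) (o : ℤ)
    (K : ℕ) (𝒩 : Finset (ℕ × ℤ)) (R : ℕ → Bool → Fin 4 → ℕ → ℤ → ℝ)
    (𝒞 : ℕ → Bool → Finset (ℕ × ℤ)) : Prop where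
  δ0 : ∀ j, 0 ≤ δ j
  lim : ∀ ε : ℝ, 0 < ε → ∃ J, ∀ j, J ≤ j → δ j ≤ ε
  cell : ∀ j b, ∀ c ∈ 𝒞 j b, c.1 ≤ K
  bad : ∀ j, j0 ≤ j → ∀ b, ∑ c ∈ 𝒞 j b, (2 : ℝ) ^ c.1 ≤ C * ρ ^ j * 2 ^ K
  unif : ∀ j, j0 ≤ j → ∀ N ∈ 𝒩, (∀ i, j0 ≤ i → i ≤ j → Fre n (ty n N) (𝒞 i (ty n N)) N) →
    ∀ t : Pt × Tri, |dot ((gr 7 (shf (n + 7) (ty n N))).cube N.1 (le N)) (R j (ty n N) 0 N.1)
      (a1 (fc 0) N.1 t)| ≤ wP (δ j) (cube3 N.1 t.1) t.2
  energy : ∀ j, j0 ≤ j → ∀ N ∈ 𝒩, (∀ i, j0 ≤ i → i ≤ j → Fre n (ty n N) (𝒞 i (ty n N)) N) →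
    ∀ i, dot ((gr 7 (shf (n + 7) (ty n N))).cube N.1 (le N)) (R j (ty n N) i N.1)
      (R j (ty n N) i N.1) ≤ C * 2 ^ N.1
  first : ∀ b i, ∑ N ∈ gdN n b 𝒩 (fun j => 𝒞 j b) j0 j0,
    |nd o N.1 N.2 (rl f (fun m => R j0 b m N.1) i)| ≤ (F + C * ρ ^ j0 * E) * 2 ^ K
  step : ∀ j, j0 ≤ j → ∀ b i, ∑ N ∈ gdN n b 𝒩 (fun j => 𝒞 j b) j0 (j + 1),
    |nd o N.1 N.2 (rl (fun m => R j b m N.1) (fun m => R (j + 1) b m N.1) i)| ≤
      C * ρ ^ j * E * 2 ^ K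

/-- the level system of the paths -/
theorem lvSys2_of_paths {ρ C F E : ℝ} {j0 n K : ℕ} {δ : ℕ → ℝ} {f : Fin 4 → ℤ → ℝ}
    {o V : ℤ} {𝒩 : Finset (ℕ × ℤ)} {R : ℕ → Bool → Fin 4 → ℕ → ℤ → ℝ}
    {𝒞 : ℕ → Bool → Finset (ℕ × ℤ)} (hd : Dat2 n f o K V 𝒩)
    (hρ : 0 ≤ ρ) (hC : 0 ≤ C) (hE : 0 ≤ E) (h : LvPaths2 ρ C F j0 n E δ f o K 𝒩 R 𝒞) :
    LvSys2 ρ (2 ^ 9 * C) (8 * F) j0 E f o K 𝒩
      (fun j N => nd o N.1 N.2 fun i => R j (ty n N) i N.1) (fun j => bdN n 𝒩 (𝒞 j)) := by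
  classical
  have hwN : ∀ N, wN o f N = nd o N.1 N.2 f := fun N => rfl
  have hfre : ∀ j, ∀ N ∈ 𝒩, ¬ Bad (bdN n 𝒩 (𝒞 j)) N → ∀ b, Fre n b (𝒞 j b) N :=
    fun j N hN hb b => fre_of_not_bad hd.cl (h.cell j) hN hb b
  refine ⟨?_, ?_, ?_, ?_, ?_⟩
  · intro j _
    unfold bdN
    exact union_subset (bn_sub _ _ _) (bn_sub _ _ _)
  · intro j hj
    have h1 : ∑ Q ∈ bdN n 𝒩 (𝒞 j), (2 : ℝ) ^ Q.1 ≤
        ∑ Q ∈ bn (shf (n + 7) false) 𝒩 (𝒞 j false), (2 : ℝ) ^ Q.1 +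
        ∑ Q ∈ bn (shf (n + 7) true) 𝒩 (𝒞 j true), (2 : ℝ) ^ Q.1 := by
      unfold bdN
      have h := sum_union_inter (s₁ := bn (shf (n + 7) false) 𝒩 (𝒞 j false))
        (s₂ := bn (shf (n + 7) true) 𝒩 (𝒞 j true)) (f := fun N => (2 : ℝ) ^ N.1)
      have h2 : 0 ≤ ∑ N ∈ bn (shf (n + 7) false) 𝒩 (𝒞 j false) ∩
        bn (shf (n + 7) true) 𝒩 (𝒞 j true), (2 : ℝ) ^ N.1 := sum_nonneg fun _ _ => by positivity
      linarith
    have h2 := sum_bn (shf (n + 7) false) 𝒩 (𝒞 j false)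
    have h3 := sum_bn (shf (n + 7) true) 𝒩 (𝒞 j true)
    have h4 := h.bad j hj false
    have h5 := h.bad j hj true
    linarith
  · -- first
    have h1 : ∑ N ∈ gd 𝒩 (bdN n 𝒩 (𝒞 j0)), |wN o f N - nd o N.1 N.2 fun i => R j0 (ty n N) i N.1| ≤
        ∑ b : Bool, ∑ i : Fin 4, ∑ N ∈ gdN n b 𝒩 (fun j => 𝒞 j b) j0 j0,
          |nd o N.1 N.2 (rl f (fun m => R j0 b m N.1) i)| := by
      have h2 : ∀ N ∈ gd 𝒩 (bdN n 𝒩 (𝒞 j0)),
          |wN o f N - nd o N.1 N.2 fun i => R j0 (ty n N) i N.1| ≤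
          ∑ b : Bool, ∑ i : Fin 4, if N ∈ gdN n b 𝒩 (fun j => 𝒞 j b) j0 j0 then
            |nd o N.1 N.2 (rl f (fun m => R j0 b m N.1) i)| else 0 := by
        intro N hN
        obtain ⟨hN1, hN2⟩ := mem_gd.1 hN
        have hmem : N ∈ gdN n (ty n N) 𝒩 (fun j => 𝒞 j (ty n N)) j0 j0 :=
          mem_gdN.2 ⟨hN1, rfl, fun i h3 h4 => by
            have : i = j0 := le_antisymm h4 h3
            subst this
            exact hfre _ N hN1 hN2 _⟩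
        refine (abs_nd_tele o N.1 N.2 f (fun i => R j0 (ty n N) i N.1)).trans ?_
        refine le_trans (le_of_eq ?_) (single_le_sum (f := fun b : Bool => ∑ i : Fin 4,
          if N ∈ gdN n b 𝒩 (fun j => 𝒞 j b) j0 j0 then
            |nd o N.1 N.2 (rl f (fun m => R j0 b m N.1) i)| else 0)
          (fun b _ => sum_nonneg fun i _ => by split_ifs <;> simp) (mem_univ (ty n N)))
        exact sum_congr rfl fun i _ => by rw [if_pos hmem]
      refine (sum_le_sum h2).trans ?_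
      rw [sum_comm]
      refine sum_le_sum fun b _ => ?_
      rw [sum_comm]
      refine sum_le_sum fun i _ => ?_
      rw [← sum_filter]
      refine sum_le_sum_of_subset_of_nonneg ?_ fun _ _ _ => abs_nonneg _
      intro N hN
      exact (mem_filter.1 hN).2
    have h2 : ∑ b : Bool, ∑ i : Fin 4, ∑ N ∈ gdN n b 𝒩 (fun j => 𝒞 j b) j0 j0,
          |nd o N.1 N.2 (rl f (fun m => R j0 b m N.1) i)| ≤
        ∑ b : Bool, ∑ i : Fin 4, (F + C * ρ ^ j0 * E) * 2 ^ K :=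
      sum_le_sum fun b _ => sum_le_sum fun i _ => h.first b i
    simp only [sum_const, card_univ, Fintype.card_fin, Fintype.card_bool, nsmul_eq_mul] at h2
    push_cast at h2
    refine (h1.trans h2).trans ?_
    have h3 : 0 ≤ C * ρ ^ j0 * E * 2 ^ K := by positivity
    linarith
  · -- step
    intro j hj
    have h1 : ∑ N ∈ gdU j0 (j + 1) 𝒩 (fun j => bdN n 𝒩 (𝒞 j)),
        |(nd o N.1 N.2 fun i => R j (ty n N) i N.1) -
          nd o N.1 N.2 fun i => R (j + 1) (ty n N) i N.1| ≤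
        ∑ b : Bool, ∑ i : Fin 4, ∑ N ∈ gdN n b 𝒩 (fun j => 𝒞 j b) j0 (j + 1),
          |nd o N.1 N.2 (rl (fun m => R j b m N.1) (fun m => R (j + 1) b m N.1) i)| := by
      have h2 : ∀ N ∈ gdU j0 (j + 1) 𝒩 (fun j => bdN n 𝒩 (𝒞 j)),
          |(nd o N.1 N.2 fun i => R j (ty n N) i N.1) -
            nd o N.1 N.2 fun i => R (j + 1) (ty n N) i N.1| ≤
          ∑ b : Bool, ∑ i : Fin 4, if N ∈ gdN n b 𝒩 (fun j => 𝒞 j b) j0 (j + 1) then
            |nd o N.1 N.2 (rl (fun m => R j b m N.1) (fun m => R (j + 1) b m N.1) i)| else 0 := by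
        intro N hN
        obtain ⟨hN1, hN2⟩ := mem_gdU.1 hN
        have hmem : N ∈ gdN n (ty n N) 𝒩 (fun j => 𝒞 j (ty n N)) j0 (j + 1) :=
          mem_gdN.2 ⟨hN1, rfl, fun i h3 h4 => hfre _ N hN1 (hN2 i h3 h4) _⟩
        refine (abs_nd_tele o N.1 N.2 (fun i => R j (ty n N) i N.1)
          (fun i => R (j + 1) (ty n N) i N.1)).trans ?_
        refine le_trans (le_of_eq ?_) (single_le_sum (f := fun b : Bool => ∑ i : Fin 4,
          if N ∈ gdN n b 𝒩 (fun j => 𝒞 j b) j0 (j + 1) then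
            |nd o N.1 N.2 (rl (fun m => R j b m N.1) (fun m => R (j + 1) b m N.1) i)| else 0)
          (fun b _ => sum_nonneg fun i _ => by split_ifs <;> simp) (mem_univ (ty n N)))
        exact sum_congr rfl fun i _ => by rw [if_pos hmem]
      refine (sum_le_sum h2).trans ?_
      rw [sum_comm]
      refine sum_le_sum fun b _ => ?_
      rw [sum_comm]
      refine sum_le_sum fun i _ => ?_
      rw [← sum_filter]
      refine sum_le_sum_of_subset_of_nonneg ?_ fun _ _ _ => abs_nonneg _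
      intro N hN
      exact (mem_filter.1 hN).2
    have h2 : ∑ b : Bool, ∑ i : Fin 4, ∑ N ∈ gdN n b 𝒩 (fun j => 𝒞 j b) j0 (j + 1),
          |nd o N.1 N.2 (rl (fun m => R j b m N.1) (fun m => R (j + 1) b m N.1) i)| ≤
        ∑ b : Bool, ∑ i : Fin 4, C * ρ ^ j * E * 2 ^ K :=
      sum_le_sum fun b _ => sum_le_sum fun i _ => h.step j hj b i
    simp only [sum_const, card_univ, Fintype.card_fin, Fintype.card_bool, nsmul_eq_mul] at h2
    push_cast at h2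
    refine (h1.trans h2).trans ?_
    have h3 : 0 ≤ C * ρ ^ j * E * 2 ^ K := by positivity
    linarith
  · -- limit
    intro N hN hb ε hε
    have hfr : ∀ j, ∀ i, j0 ≤ i → i ≤ j → Fre n (ty n N) (𝒞 i (ty n N)) N :=
      fun j i h1 _ => hfre i N hN (hb i h1) _
    have hW := typ_ty (n := n) (N := N) ((hd.root N hN).2.1.trans hd.hK)
    exact lim_nd (o := o) hd.ho (hd.root N hN).1 (v := N.2) (s := shf (n + 7) (ty n N)) hW h.δ0
      h.lim (j0 := j0) (f := fun j i => R j (ty n N) i N.1)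
      (fun j hj => h.unif j hj N hN (hfr j)) (fun j hj i => h.energy j hj N hN (hfr j) i) hε

/-! ### The level process -/

/-- the cells of the nodes are used -/
theorem used_of_mem2 {n : ℕ} {f : Fin 4 → ℤ → ℝ} {o : ℤ} {K : ℕ}
    {V : ℤ} {𝒩 : Finset (ℕ × ℤ)} (hd : Dat2 n f o K V 𝒩) {N : ℕ × ℤ} (hN : N ∈ 𝒩) (b : Bool)
    {x : ℤ} (hx : x ∈ W N.1 N.2) : used n K V f b N.1 x := by
  intro i
  obtain ⟨h1, h2, h3⟩ := hd.root N hN
  have h4 := al_window (s := shf (n + 7) b) (n := K) h2 (v := N.2) (f := f i)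
    (fun l hl hl' => hd.l2 _ (hd.cl N hN l hl hl') i) (x := x) hx
  rwa [h3] at h4

/-- the systems contain the scalar tests of the pair weight of the level `δ j`, at the scales
`≤ n` -/
def Scal2 {n : ℕ} {ι : Type} (𝒮 : LSys n ι) (δ : ℕ → ℝ) : Prop :=
  ∀ j b i k x, k ≤ n → ∀ G : ℤ → ℝ, (∀ m, |dot ((gb n b).cube k x) G ((𝒮.S j b i).a k m)| ≤
    (𝒮.S j b i).W k ((gb n b).cube k x) m) →
    ∀ t : Pt × Tri, |dot ((gb n b).cube k x) G (a1 (fc i) k t)| ≤ wP (δ j) (cube3 k t.1) t.2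

/-- the residuals are uniform on the used cells -/
theorem lp_unif2 {n : ℕ} {ι : Type} {𝒮 : LSys n ι} {δ : ℕ → ℝ} (hs : Scal2 𝒮 δ)
    {K : ℕ} (hK : K ≤ n) (V : ℤ) (f : Fin 4 → ℤ → ℝ) (j : ℕ) (b : Bool) (i : Fin 4) {k : ℕ}
    (hk : k ≤ K) {x : ℤ} (hx : used n K V f b k x) (t : Pt × Tri) :
    |dot ((gb n b).cube k x) (lp 𝒮 K V f j b i k) (a1 (fc i) k t)| ≤
      wP (δ j) (cube3 k t.1) t.2 := by
  refine hs j b i k x (hk.trans hK) _ (fun m => ?_) t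
  have h := (pth_lp 𝒮 K V f j b i).step k hk
  have h2 : dot ((gb n b).cube k x) (lp 𝒮 K V f j b i k) ((𝒮.S j b i).a k m) =
      dot ((gb n b).cube k x) (T (𝒮.S j b i) k
        (pH (𝒮.w j b i) K 4 (rst K V (f i)) (used n K V f b) k)) ((𝒮.S j b i).a k m) := by
    unfold dot
    refine sum_congr rfl fun y hy => ?_
    rw [h y ((used_congr hy).2 hx)]
  rw [h2]
  exact T_unif _ _ _ _ _

/-- **THE FIRST LEVEL** (for one datum): from `f` to the residuals of the level `j0`; `F` is the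
cost which does not depend on the number of scales. -/
def FirstB2 {n : ℕ} {ι : Type} (𝒮 : LSys n ι) (ρ C F : ℝ) (j0 : ℕ) (E : ℝ) (f : Fin 4 → ℤ → ℝ)
    (o : ℤ) (K : ℕ) (V : ℤ) (𝒩 : Finset (ℕ × ℤ)) : Prop :=
  ∃ 𝒞 : Bool → Finset (ℕ × ℤ), BadC K (C * ρ ^ j0) 𝒞 ∧ ∀ b i, ∑ N ∈ frN n b 𝒩 (𝒞 b),
    |nd o N.1 N.2 (rl f (fun m => lp 𝒮 K V f j0 b m N.1) i)| ≤ (F + C * ρ ^ j0 * E) * 2 ^ K

/-- **ONE STEP** (for one datum): from the residuals of the level `j` to those of the level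
`j + 1`. -/
def StepB2 {n : ℕ} {ι : Type} (𝒮 : LSys n ι) (ρ C : ℝ) (j : ℕ) (E : ℝ) (f : Fin 4 → ℤ → ℝ)
    (o : ℤ) (K : ℕ) (V : ℤ) (𝒩 : Finset (ℕ × ℤ)) : Prop :=
  ∃ 𝒞 : Bool → Finset (ℕ × ℤ), BadC K (C * ρ ^ j) 𝒞 ∧ ∀ b i, ∑ N ∈ frN n b 𝒩 (𝒞 b),
    |nd o N.1 N.2 (rl (fun m => lp 𝒮 K V f j b m N.1) (fun m => lp 𝒮 K V f (j + 1) b m N.1) i)| ≤
      C * ρ ^ j * E * 2 ^ K

/-- **what the level step has to deliver** -/
def TopHyp2 : Prop := ∃ ρ C : ℝ, ∃ F : ℕ → ℝ, 0 ≤ ρ ∧ ρ < 1 ∧ 0 ≤ C ∧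
  ∀ j0 : ℕ, 1 ≤ j0 → ∀ (n : ℕ) (P : ℝ), 0 ≤ P → Root2 n P →
    ∃ (δ : ℕ → ℝ) (ι : Type) (𝒮 : LSys n ι), (∀ j, 0 ≤ δ j) ∧
      (∀ ε : ℝ, 0 < ε → ∃ J, ∀ j, J ≤ j → δ j ≤ ε) ∧ Scal2 𝒮 δ ∧
      ∀ f o K V 𝒩, Dat2 n f o K V 𝒩 →
        FirstB2 𝒮 ρ C (F j0) j0 (1 + P) f o K V 𝒩 ∧
        ∀ j, j0 ≤ j → StepB2 𝒮 ρ C j (1 + P) f o K V 𝒩

/-- the level systems from the first level and the steps -/
theorem levelSys2_of_topHyp2 (h : TopHyp2) : LevelSys2 := by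
  obtain ⟨ρ, C, F, hρ0, hρ1, hC, h⟩ := h
  refine ⟨ρ, 2 ^ 9 * (C + C * ρ⁻¹ + 2 ^ 12), fun j0 => 8 * F j0, hρ0, hρ1, ?_, ?_⟩
  · have := inv_nonneg.2 hρ0
    positivity
  intro j0 hj0 n P hP hroot f o K V 𝒩 hd
  obtain ⟨δ, ι, 𝒮, hδ0, hδ, hsc, h⟩ := h j0 hj0 n P hP hroot
  obtain ⟨hF, hS⟩ := h f o K V 𝒩 hd
  have hE : 0 ≤ 1 + P := by positivity
  set E := 1 + P with hEd
  obtain ⟨𝒞0, hb0, hf0⟩ := hF
  have hS' : ∀ j, ∃ 𝒞 : Bool → Finset (ℕ × ℤ), j0 ≤ j → BadC K (C * ρ ^ j) 𝒞 ∧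
      ∀ b i, ∑ N ∈ frN n b 𝒩 (𝒞 b), |nd o N.1 N.2 (rl (fun m => lp 𝒮 K V f j b m N.1)
        (fun m => lp 𝒮 K V f (j + 1) b m N.1) i)| ≤ C * ρ ^ j * E * 2 ^ K := by
    intro j
    by_cases hj : j0 ≤ j
    · obtain ⟨𝒞, h1, h2⟩ := hS j hj
      exact ⟨𝒞, fun _ => ⟨h1, h2⟩⟩
    · exact ⟨fun _ => ∅, fun h => absurd h hj⟩
  choose 𝒞s h𝒞s using hS'
  -- the bad cells of the level `j`: those of the step `j - 1 → j`
  set 𝒞 : ℕ → Bool → Finset (ℕ × ℤ) := fun j b => if j ≤ j0 then 𝒞0 b else 𝒞s (j - 1) b with h𝒞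
  have hρi := inv_nonneg.2 hρ0
  have hCC : C ≤ C + C * ρ⁻¹ + 2 ^ 12 := by
    have := mul_nonneg hC hρi
    linarith
  have hCC0 : 0 ≤ C + C * ρ⁻¹ + 2 ^ 12 := by positivity
  refine ⟨_, _, lvSys2_of_paths (δ := δ) (R := fun j b i => lp 𝒮 K V f j b i) (𝒞 := 𝒞)
    hd hρ0 hCC0 hE ?_⟩
  have husd : ∀ N ∈ 𝒩, used n K V f (ty n N) N.1 (le N) := fun N hN =>
    used_of_mem2 hd hN _ (le_mem_W N)
  refine ⟨hδ0, hδ, ?_, ?_, ?_, ?_, ?_, ?_⟩
  · intro j b c hc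
    by_cases hj : j ≤ j0
    · simp only [h𝒞, if_pos hj] at hc
      exact hb0.cell b c hc
    · simp only [h𝒞, if_neg hj] at hc
      exact (h𝒞s (j - 1) (by omega)).1.cell b c hc
  · intro j hj b
    by_cases hj' : j ≤ j0
    · have : j = j0 := le_antisymm hj' hj
      subst this
      simp only [h𝒞, le_refl, if_true]
      refine (hb0.bad b).trans ?_
      have := pow_nonneg hρ0 j
      gcongr
    · simp only [h𝒞, if_neg hj']
      refine ((h𝒞s (j - 1) (by omega)).1.bad b).trans ?_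
      obtain ⟨i, rfl⟩ : ∃ i, j = i + 1 := ⟨j - 1, by omega⟩
      have h1 : i + 1 - 1 = i := by omega
      rw [h1]
      refine mul_le_mul_of_nonneg_right ?_ (by positivity)
      rcases hρ0.eq_or_lt with h0 | h0
      · -- `ρ = 0`
        rw [← h0]
        have : i ≠ 0 := by omega
        rw [zero_pow this, zero_pow (by omega)]
        simp
      · have h2 : C * ρ ^ i = C * ρ⁻¹ * ρ ^ (i + 1) := by
          rw [pow_succ]; field_simp
        rw [h2]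
        refine mul_le_mul_of_nonneg_right ?_ (by positivity)
        linarith
  · intro j _ N hN _ t
    exact lp_unif2 hsc hd.hK V f j (ty n N) 0 (hd.root N hN).2.1 (husd N hN) t
  · intro j _ N hN _ i
    refine (lp_energy 𝒮 K V f j (ty n N) i (hd.root N hN).2.1 (husd N hN)).trans ?_
    have := mul_nonneg hC hρi
    refine mul_le_mul_of_nonneg_right ?_ (by positivity)
    linarith
  · intro b i
    have hsub : gdN n b 𝒩 (fun j => 𝒞 j b) j0 j0 ⊆ frN n b 𝒩 (𝒞0 b) := by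
      intro N hN
      obtain ⟨h1, h2, h3⟩ := mem_gdN.1 hN
      refine mem_frN.2 ⟨h1, h2, ?_⟩
      have h4 := h3 j0 le_rfl le_rfl
      simpa only [h𝒞, le_refl, if_true] using h4
    refine (sum_le_sum_of_subset_of_nonneg hsub fun _ _ _ => abs_nonneg _).trans
      ((hf0 b i).trans ?_)
    have := pow_nonneg hρ0 j0
    gcongr
  · intro j hj b i
    have hsub : gdN n b 𝒩 (fun j => 𝒞 j b) j0 (j + 1) ⊆ frN n b 𝒩 (𝒞s j b) := by
      intro N hN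
      obtain ⟨h1, h2, h3⟩ := mem_gdN.1 hN
      refine mem_frN.2 ⟨h1, h2, ?_⟩
      have h4 := h3 (j + 1) (by omega) le_rfl
      have h5 : ¬ j + 1 ≤ j0 := by omega
      simpa only [h𝒞, if_neg h5, Nat.add_sub_cancel] using h4
    refine (sum_le_sum_of_subset_of_nonneg hsub fun _ _ _ => abs_nonneg _).trans
      (((h𝒞s j hj).2 b i).trans ?_)
    have := pow_nonneg hρ0 j
    gcongr

/-- **The boundedness at `(4, 4, 4)` from the first level and the steps.** -/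
theorem boundedAt_444_of_topHyp2 (h : TopHyp2) : Vale.Agent.P141.BoundedAt 4 4 4 (4 / 3) :=
  Vale.Agent.P141.H347.boundedAt_444_of_levelSys2 (levelSys2_of_topHyp2 h)

end

end Vale.Agent.P141.H444
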