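import Vale.Agent.P141.H444.PayS
import Vale.Agent.P141.H736.TfSysF

/-!
# P141, scale invariant version: the static payment of the generic atoms, the total payment

* `l2c`: the class of the static companions with local energy `≤ E`; `blw_of_nd`, `ok_l2c`,
  `ok_stc`: companions on a region (`Rgn`) are admissible for 736's classes;
* `sum_pay_gen`: `∑ |wN (generic atom, static companions)| ≤ (∏ s) · cost`, companions admissible
  after division by `s`;
* `pay_total`: **347's `Pay` for the total systems**, scalar and generic atoms.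
-/

namespace Vale.Agent.P141.H444

open Finset
open Vale.Agent.P141.H315 (Grid dot)
open Vale.Agent.P141.PL (Pt el fc)
open Vale.Agent.P141.PL.H315 (le cube3 Tri)
open Vale.Agent.P141.PL.H571 (W loc1_smul)
open Vale.Agent.P141.PL.H95 (gr mem_gr card_gr shf)
open Vale.Agent.P141.PL.H318
open Vale.Agent.P141.PL.H855 (wN TT wN_congr wN_update_zero update_apply_node)
open Vale.Agent.P141.H347 (LW cd)
open Vale.Agent.P141.H347.Fi (Nd Pay)
open Vale.Agent.P141.H782 (gb LSys LSys.S LSys.w)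
open Vale.Agent.P141.H8 (Rgn En Un)
open Vale.Agent.P141.H736 (Cls CW PSys Blw val cost val_le_cost stc stOk Stat noneS Mixed mixed_none
  val_nonneg costSysF cost_le_WF)

noncomputable section

open scoped Classical

/-- **The class of the static companions with local energy at most `E`.** -/
def l2c (g : Grid ℤ) (E : ℝ) (hE : 0 ≤ E) : Cls g := stc (noneS g) 1 E le_rfl mixed_none hE

section region

variable {σ : ℤ} {gd ud : ℕ → ℤ → Prop} {Λ : ℕ} {x : ℤ}

theorem blw_of_nd (hR : Rgn (gr 7 σ) gd Λ x ud) {𝒲 : Finset (ℕ × ℤ)} (hW : Nd σ ud 𝒲) :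
    Blw (gr 7 σ) Λ ((gr 7 σ).cube Λ x) 𝒲 := by
  intro N hN
  obtain ⟨h1, h2, h3⟩ := hW N hN
  obtain ⟨h4, h5⟩ := hR.bel _ _ h3
  exact ⟨h1, h4, h2, h5⟩

theorem ud_up (hR : Rgn (gr 7 σ) gd Λ x ud) {k : ℕ} {y : ℤ} (h : ud k y) :
    ∀ l, k ≤ l → l ≤ Λ → ud l y := by
  intro l hkl
  induction l, hkl using Nat.le_induction with
  | base => exact fun _ => h
  | succ l _ ih => exact fun hl => hR.up l (by omega) y (ih (by omega))

/-- companions on a region are admissible: uniform for the tests of `S`, energy `≤ E` -/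
theorem ok_stc {ι : Type*} (S : CSys (gr 7 σ) ι) {C E : ℝ} (hC : 1 ≤ C) (hS : Mixed S C)
    (hE : 0 ≤ E) (hR : Rgn (gr 7 σ) gd Λ x ud) {𝒲 : Finset (ℕ × ℤ)} (hW : Nd σ ud 𝒲)
    {F : ℤ → ℝ} (hF : En (gr 7 σ) ud F E) (hU : Un S 1 ud F) :
    (stc S C E hC hS hE).ok Λ ((gr 7 σ).cube Λ x) 𝒲 fun _ => F := by
  refine ⟨F, fun _ _ _ _ => rfl, fun N hN l h1 h2 => ?_⟩
  have h3 := ud_up hR (hW N hN).2.2 l h1 h2
  refine ⟨fun i => ?_, hF l _ h3⟩
  have h4 := hU l _ h3 i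
  rwa [one_mul] at h4

theorem ok_l2c {E : ℝ} (hE : 0 ≤ E) (hR : Rgn (gr 7 σ) gd Λ x ud) {𝒲 : Finset (ℕ × ℤ)}
    (hW : Nd σ ud 𝒲) {F : ℤ → ℝ} (hF : En (gr 7 σ) ud F E) :
    (l2c (gr 7 σ) E hE).ok Λ ((gr 7 σ).cube Λ x) 𝒲 fun _ => F :=
  ok_stc _ le_rfl mixed_none hE hR hW hF fun _ _ _ i => i.elim

end region

/-- one factor for every slot -/
theorem wN_scale (o : ℤ) (s : Fin 4 → ℝ) (f : Fin 4 → ℤ → ℝ) (N : ℕ × ℤ) :
    wN o (fun l y => s l * f l y) N = (∏ l, s l) * wN o f N := by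
  unfold wN
  rw [loc1_smul]
  ring

/-- **Cost of a fixed function in the slot `r`**, the static companions admissible after division
by the numbers `s l`. -/
theorem sum_pay_gen {σ : ℤ} {Λ : ℕ} {x : ℤ} (κ : Fin 4 → Cls (gr 7 σ)) {o : ℤ}
    (ho : o = 1 ∨ o = -1) (r : Fin 4) (ψ : ℤ → ℝ) {𝒲 : Finset (ℕ × ℤ)}
    (hb : Blw (gr 7 σ) Λ ((gr 7 σ).cube Λ x) 𝒲) {h : Fin 4 → ℤ → ℝ} {s : Fin 4 → ℝ}
    (hs : ∀ l, 0 < s l)
    (hok : ∀ l, l ≠ r → (κ l).ok Λ ((gr 7 σ).cube Λ x) 𝒲 fun _ y => (s l)⁻¹ * h l y) :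
    ∑ N ∈ 𝒲, |wN o (Function.update h r ψ) N| ≤
      (∏ l ∈ univ.erase r, s l) * cost κ o r ψ Λ ((gr 7 σ).cube Λ x) := by
  have key := val_le_cost κ ho r ψ hb (A := fun l _ y => (s l)⁻¹ * h l y) hok
  set a : Fin 4 → ℝ := fun l => if l = r then 1 else s l with ha
  have hpa : ∏ l, a l = ∏ l ∈ univ.erase r, s l := by
    rw [← mul_prod_erase univ _ (mem_univ r)]
    simp only [ha, if_true, one_mul]
    exact prod_congr rfl fun l hl => if_neg (ne_of_mem_erase hl)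
  have e1 : ∀ N ∈ 𝒲, |wN o (Function.update h r ψ) N| = (∏ l ∈ univ.erase r, s l) *
      |wN o (Function.update (fun l y => (s l)⁻¹ * h l y) r ψ) N| := by
    intro N _
    have e2 : wN o (Function.update h r ψ) N =
        wN o (fun l y => a l * Function.update (fun l y => (s l)⁻¹ * h l y) r ψ l y) N := by
      refine wN_congr ho fun l y _ => ?_
      by_cases hl : l = r
      · subst hl
        simp only [Function.update_self, ha, if_true, one_mul]
      · rw [Function.update_of_ne hl, Function.update_of_ne hl]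
        simp only [ha, if_neg hl]
        rw [← mul_assoc, mul_inv_cancel₀ (hs l).ne', one_mul]
    rw [e2, wN_scale, hpa, abs_mul, abs_of_nonneg (prod_nonneg fun l _ => (hs l).le)]
  rw [sum_congr rfl e1, ← mul_sum]
  refine mul_le_mul_of_nonneg_left ?_ (prod_nonneg fun l _ => (hs l).le)
  refine le_trans (le_of_eq ?_) key
  unfold Vale.Agent.P141.H736.val TT
  refine sum_congr rfl fun N _ => ?_
  rw [update_apply_node]

/-- the same for an atom of a packed system whose weights dominate the cost -/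
theorem sum_pay_psys {σ : ℤ} {ι : Type*} (P : PSys (gr 7 σ) ι) {Λ : ℕ} {x : ℤ}
    (κ : Fin 4 → Cls (gr 7 σ)) {o : ℤ} (ho : o = 1 ∨ o = -1) (r : Fin 4) {c : ℝ} (hc : 0 ≤ c)
    (hcost : ∀ i, P.live Λ i → cost κ o r (P.ψ i) Λ ((gr 7 σ).cube Λ x) ≤
      c * P.W Λ ((gr 7 σ).cube Λ x) i) {𝒲 : Finset (ℕ × ℤ)}
    (hb : Blw (gr 7 σ) Λ ((gr 7 σ).cube Λ x) 𝒲) {h : Fin 4 → ℤ → ℝ} {s : Fin 4 → ℝ}
    (hs : ∀ l, 0 < s l)
    (hok : ∀ l, l ≠ r → (κ l).ok Λ ((gr 7 σ).cube Λ x) 𝒲 fun _ y => (s l)⁻¹ * h l y)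
    {j : ℕ} (hj : Λ ≤ j) (i : ι) :
    ∑ N ∈ 𝒲, |wN o (Function.update h r (P.toC.a j i)) N| ≤
      (∏ l ∈ univ.erase r, s l) * (c * P.W Λ ((gr 7 σ).cube Λ x) i) := by
  rw [P.toC_a]
  split_ifs with hl
  · refine (sum_pay_gen κ ho r (P.ψ i) hb hs hok).trans ?_
    exact mul_le_mul_of_nonneg_left (hcost i (P.live_mono _ _ i hj hl))
      (prod_nonneg fun l _ => (hs l).le)
  · have h0 : ∀ N ∈ 𝒲, |wN o (Function.update h r 0) N| = 0 := fun N _ => by
      rw [wN_update_zero, abs_zero]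
    rw [sum_congr rfl h0, sum_const_zero]
    exact mul_nonneg (prod_nonneg fun l _ => (hs l).le) (mul_nonneg hc (P.W_nonneg _ _ _))

/-- **The generic half for the total systems** `TSys.sys`. -/
theorem pay_gen_sys {n : ℕ} {κ' : Type} (t : TSys n κ') (l : ℕ) (b : Bool)
    {gd ud : ℕ → ℤ → Prop} {Λ : ℕ} {x : ℤ} (hR : Rgn (gr 7 (shf (n + 7) b)) gd Λ x ud) {o : ℤ}
    (ho : o = 1 ∨ o = -1) (r : Fin 4) (κ : Fin 4 → Cls (gr 7 (shf (n + 7) b))) {c : ℝ}
    (hc : 0 ≤ c) (hcost : ∀ i, (t.P l b r).live Λ i →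
      cost κ o r ((t.P l b r).ψ i) Λ ((gr 7 (shf (n + 7) b)).cube Λ x) ≤
      c * (t.P l b r).W Λ ((gr 7 (shf (n + 7) b)).cube Λ x) i) {𝒲 : Finset (ℕ × ℤ)}
    (hW : Nd (shf (n + 7) b) ud 𝒲) {h : Fin 4 → ℤ → ℝ} {s : Fin 4 → ℝ} (hs : ∀ l, 0 < s l)
    (hok : ∀ l, l ≠ r → (κ l).ok Λ ((gr 7 (shf (n + 7) b)).cube Λ x) 𝒲
      fun _ y => (s l)⁻¹ * h l y) {j : ℕ} (hj : Λ ≤ j) (i : κ') :
    ∑ N ∈ 𝒲, |wN o (Function.update h r ((t.sys.S l b r).a j (Sum.inr i))) N| ≤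
      2 * (t.P l b r).C * c * (∏ l ∈ univ.erase r, s l) *
        (t.sys.w l b r).ω j Λ x (Sum.inr i) * cd (gr 7 (shf (n + 7) b)) Λ x := by
  have h1 := sum_pay_psys (t.P l b r) κ ho r hc hcost (blw_of_nd hR hW) hs hok hj i
  have h2 := t.packed_le l b r j Λ x i
  have h3 : 0 ≤ ∏ l ∈ univ.erase r, s l := prod_nonneg fun l _ => (hs l).le
  refine h1.trans ((mul_le_mul_of_nonneg_left (mul_le_mul_of_nonneg_left h2 hc) h3).trans
    (le_of_eq ?_))
  ring

/-- **347's static payment for the total systems**, one level `l`, one type `b`: scalar atoms by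
(E) at the level one, generic atoms by the weights (which dominate the cost of the class of the
companions with local energy `≤ CE`). -/
theorem pay_total {C : ℝ} (hC : 0 ≤ C) (hE : EnL C) {n : ℕ} {κ' : Type} (t : TSys n κ') (l : ℕ)
    (b : Bool) {o : ℤ} (ho : o = 1 ∨ o = -1) {CE : ℝ} (hCE : 0 ≤ CE) {cg CP : ℝ} (hcg : 0 ≤ cg)
    (hCP : ∀ m, (t.P l b m).C ≤ CP)
    (hcost : ∀ m k x i, (t.P l b m).live k i →
      cost (fun _ => l2c (gb n b) CE hCE) o m ((t.P l b m).ψ i) k ((gb n b).cube k x) ≤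
        cg * (t.P l b m).W k ((gb n b).cube k x) i) (L : ℕ) (gd : ℕ → ℤ → Prop) :
    Pay (s := shf (n + 7) b) o (fun m => t.sys.w l b m) L gd
      (16 * (C * (CE * √CE)) / t.δ l + 2 * CP * cg) CE := by
  intro m Λ x ud _ hR h hh 𝒲 hW j hj _ i
  have hCP0 : 0 ≤ CP := (zero_le_one.trans (t.P l b m).one_le).trans (hCP m)
  have hd := t.pos l
  have hcd : 0 ≤ cd (gr 7 (shf (n + 7) b)) Λ x := Nat.cast_nonneg _
  have hω := (t.sys.w l b m).nonneg j Λ x i
  have hc1 : 0 ≤ 16 * (C * (CE * √CE)) / t.δ l := by positivity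
  have hc2 : 0 ≤ 2 * CP * cg := by positivity
  rcases i with i | i
  · refine (pay_scalar_of_enL hC hE t l b ho hCE m Λ x ud hR h hh hW hj i).trans ?_
    refine mul_le_mul_of_nonneg_right (mul_le_mul_of_nonneg_right ?_ hω) hcd
    linarith
  · have h1 := pay_gen_sys t l b hR ho m (fun _ => l2c (gb n b) CE hCE) hcg
      (fun i hi => hcost m Λ x i hi) hW (h := h) (s := fun _ => 1) (fun _ => one_pos)
      (fun l' hl' => by
        have := ok_l2c hCE hR hW (hh l' hl')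
        simpa using this) hj i
    refine h1.trans ?_
    refine mul_le_mul_of_nonneg_right (mul_le_mul_of_nonneg_right ?_ hω) hcd
    rw [prod_const_one, mul_one]
    have h2 : 2 * (t.P l b m).C * cg ≤ 2 * CP * cg := by
      have := hCP m
      gcongr
    linarith

end

end Vale.Agent.P141.H444
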