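import Vale.Agent.P141.H501.OfCE

/-!
# P141, scale invariant version: `H501.CEOut` from `H444.CEStm`

`H444.CEStm` is the statement of CE for regions, `H501.CEOut` its form for the grid `gb n b` used
by `StepIn`.
-/

namespace Vale.Agent.P141.H444

open Vale.Agent.P141.PL.H95 (gr shf)
open Vale.Agent.P141.H347.Gs (Ex e2 e2_pos)

noncomputable section

/-- **The form of CE used by `StepIn`** from `CEStm`. -/
theorem ceOut_of_ceStm (h : CEStm) : H501.CEOut := by
  obtain ⟨g, c, a, a', G, hg, hgc, hc, ha, ha', hG, h⟩ := h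
  refine ⟨g, c, a, a', G, hg, hgc, hc, ha, ha', hG, ?_⟩
  intro e heg hec hea hea'
  obtain ⟨C, hC, h⟩ := h e.K e.K_pos e.K e.K_pos.le
  refine ⟨C, hC, ?_⟩
  intro n b j o _ ho m a1 c1 d1 hn Λ x ud hR hx f hEa hUa hEc hUc ez hez hEd K' hK'
  have he : exK e.K g c a a' e.K_pos hg.le hgc hc ha ha' = e := by
    cases e
    subst heg hec hea hea'
    rfl
  rw [he] at h
  exact h n j b ud ud Λ x hR o ho m a1 c1 d1 hn f ez hez hEa hUa hEc hUc hEd K' hK'

/-- **The boundedness at `(4, 4, 4)`** from the two remaining statements `CEStm`, `EndStmT`. -/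
theorem boundedAt_444_of_ceStm (hCE : CEStm) (hEND : EndStmT) :
    Vale.Agent.P141.BoundedAt 4 4 4 (4 / 3) :=
  H501.boundedAt_444_of_ce_end (ceOut_of_ceStm hCE) hEND

end

end Vale.Agent.P141.H444
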