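import Vale.Agent.P141.H444.GenCost
import Vale.Agent.P141.H347.GLev
import Vale.Agent.P141.PL.H855.StepIn
import Vale.Agent.P141.H347.Tr2

/-!
# P141, scale invariant version: what CE and END have to deliver for the systems `Ex.T`

* `CEOut e A C G`: the scalar payment with gain: companion `a` uniform for the level `j` (scalar and
  generic tests), companion `c` only scalar-uniform at the level `A 2 ^ (-(1 - e.c) j)`, companion
  `d` arbitrary; price `C 2 ^ (-(1 + G) j) √ez`;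
* `CEStm`, `EndOut`, `EndStmT`: the statements with their exponents;
* `T_genL`: the generic weights dominate the costs with three arbitrary companions.
-/

namespace Vale.Agent.P141.H444

open Finset
open Vale.Agent.P141.PL (Pt)
open Vale.Agent.P141.PL.H315 (le cube3 Tri)
open Vale.Agent.P141.PL.H95 (gr shf)
open Vale.Agent.P141.PL.H318
open Vale.Agent.P141.PL.H855 (EndStm)
open Vale.Agent.P141.H347 (LW Dat2 Root2)
open Vale.Agent.P141.H347.Tr (CostR)
open Vale.Agent.P141.H347.Gs (Ex e2 e2_pos gfs gfL)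
open Vale.Agent.P141.H782 (gb LSys LSys.S LSys.w used)
open Vale.Agent.P141.H8 (Rgn En Un)
open Vale.Agent.P141.H48 (kl)
open Vale.Agent.P141.H922 (wP)
open Vale.Agent.P141.H736 (Fg psg PSys)
open Vale.Agent.P141.H829 (lsc genL)
open Vale.Agent.P141.H379 (nvF)

noncomputable section

/-- **What CE delivers** (scalar payers): for every region, the companions `f a` (`A`-uniform for
the total system of the level `j`), `f c` (scalar-uniform at the level `A 2 ^ (-(1 - e.c) j)`), both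
with local energy at most `A`, `f d` with local energy at most `ez`. -/
def CEOut (e : Ex) (A C G : ℝ) : Prop :=
  ∀ (n j : ℕ) (b : Bool) (gd ud : ℕ → ℤ → Prop) (Λ : ℕ) (x : ℤ), Rgn (gb n b) gd Λ x ud →
    ∀ o : ℤ, o = 1 ∨ o = -1 → ∀ m a c d : Fin 4, [m, a, c, d].Nodup →
    ∀ (f : Fin 4 → ℤ → ℝ) (ez : ℝ), 0 ≤ ez →
    En (gb n b) ud (f a) A → Un ((e.T n).sys.S j b a) A ud (f a) →
    En (gb n b) ud (f c) A → SU (shf (n + 7) b) c (A * e2 (-(1 - e.c)) j) ud (f c) →
    En (gb n b) ud (f d) ez → ∀ K ≤ Λ,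
    CostR m o K (C * e2 (-(1 + G)) j * √ez) (fun K p u => wP 1 (cube3 K p) u)
      fun k _ l => kl (alR Λ ud) (f l) k

/-- the exponents `g`, `c`, `a`, `a'` with a constant `K` -/
def exK (K g c a a' : ℝ) (hK : 0 < K) (hg : 0 ≤ g) (hgc : g ≤ c) (hc : c ≤ 1) (ha : 0 ≤ a)
    (ha' : 0 ≤ a') : Ex := ⟨K, g, c, a, a', hK, hg, hgc, hc, ha, ha'⟩

/-- **CE**: exponents with a gain `G`, for all constants `K` of the classes and `A` of the
companions. -/
def CEStm : Prop := ∃ (g c a a' G : ℝ) (hg : 0 < g) (hgc : g ≤ c) (hc : c ≤ 1) (ha : 0 ≤ a)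
  (ha' : 0 ≤ a'), 0 < G ∧ ∀ (K : ℝ) (hK : 0 < K) (A : ℝ), 0 ≤ A →
    ∃ C : ℝ, 0 ≤ C ∧ CEOut (exK K g c a a' hK hg.le hgc hc ha ha') A C G

/-- **What END delivers**, for the systems `Ex.T` and the exponent `κ` of the windows: block slots
with energy `en ≤ A1 2 ^ (-B j)` and packing `K'`, `en K' ≤ A1 2 ^ (-κ j)`. -/
def EndOut (e : Ex) (κ B eE A1 A2 : ℝ) : Prop :=
  ∀ (n : ℕ) (P : ℝ), 0 ≤ P → Root2 n P → ∀ f o K V 𝒩 (hd : Dat2 n f o K V 𝒩), ∀ j : ℕ, 1 ≤ j →
    ∀ b, ∀ en K' : ℝ, 0 < en → en ≤ A1 * 2 ^ (-(B * (j : ℝ))) → 1 ≤ K' →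
    en * K' ≤ A1 * 2 ^ (-(κ * (j : ℝ))) →
    EndStm (nvF hd b ∅) (used n K V f b) K (fun m => (e.T n).sys.w j b m)
      (fun m => (e.T n).sys.w (j + 1) b m) ((e.T n).sys.S j b) (16 * 4 + 2 ^ (-(κ * (j : ℝ)))) A1
      (2 ^ (-(κ * (j : ℝ)))) en K' (A2 * 2 ^ (-((κ + eE) * (j : ℝ))) * (1 + P))

/-- **END** for all the exponents. -/
def EndStmT : Prop := ∀ (e : Ex) (κ : ℝ), 0 < e.g → 0 < κ → κ ≤ 1 →
  ∃ B eE : ℝ, 0 ≤ B ∧ 0 < eE ∧ ∀ A1 : ℝ, 0 ≤ A1 → ∃ A2 : ℝ, 0 ≤ A2 ∧ EndOut e κ B eE A1 A2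

/-- **The generic weights dominate the costs with three arbitrary companions.** -/
theorem T_genL {C : ℝ} (hC : 0 ≤ C) (hE : EnL C) (e : Ex) (n j : ℕ) :
    GenL (e.T n) j (8 * (C * (CE0 * √CE0)) * e2 e.a' j) := by
  refine genL_of_floor hC hE (e.T n) j (fun b m i => rfl) (fun b m k i h => h) ?_
  intro b m k x i
  have h := Vale.Agent.P141.H829.genL_lsc_le ((e.mp j).cw (shf (n + 7) b) m) (d := PL.fc m)
    (hθ := (e.mp j).θ_pos.le) (hφ := (e.mp j).φ_pos) (hφ' := (e.mp j).φ'_nn) (e2_pos (-e.a') j) k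
    ((gb n b).cube k x) i
  have e1 : ((e.mp j).φ')⁻¹ = e2 e.a' j := by
    show (e2 (-e.a') j)⁻¹ = _
    rw [Vale.Agent.P141.H347.Gs.e2_inv, neg_neg]
  rw [e1] at h
  exact h

/-! ### Scaling of the companions -/

theorem loc_scale (k : ℕ) (m : PL.Bx) (F0 F1 F2 F3 : Pt → ℝ) (s1 s2 s3 : ℝ) :
    PL.loc k m F0 (fun y => s1 * F1 y) (fun y => s2 * F2 y) (fun y => s3 * F3 y) =
      s1 * s2 * s3 * PL.loc k m F0 F1 F2 F3 := by
  unfold PL.loc PL.prd
  simp only [mul_sum]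
  refine sum_congr rfl fun x0 _ => sum_congr rfl fun x1 _ => sum_congr rfl fun x2 _ =>
    sum_congr rfl fun x3 _ => ?_
  ring

/-- **The companions multiplied by constants.** -/
theorem costR_scale {i : Fin 4} {o : ℤ} {K : ℕ} {P : ℝ} {w : ℕ → Pt → Tri → ℝ}
    {h h' : ℕ → ℤ → Fin 4 → ℤ → ℝ} {s : Fin 4 → ℝ} (hs : ∀ l, 0 ≤ s l)
    (hh : ∀ k v l y, h k v l y = s l * h' k v l y) (hc : CostR i o K P w h') :
    CostR i o K ((∏ l ∈ univ.erase i, s l) * P) w h := by
  have hp : 0 ≤ ∏ l ∈ univ.erase i, s l := prod_nonneg fun l _ => hs l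
  intro x u
  have key := mul_le_mul_of_nonneg_left (hc x u) hp
  rw [← mul_assoc] at key
  refine le_trans (le_of_eq ?_) key
  rw [mul_sum]
  refine sum_congr rfl fun k _ => ?_
  rw [mul_left_comm]
  congr 1
  rw [mul_sum]
  refine sum_congr rfl fun m _ => ?_
  obtain rfl | rfl | rfl | rfl := PL.H560.fin4 i
  · have e2 : ∏ l ∈ univ.erase (0 : Fin 4), s l = s 1 * s 2 * s 3 := by
      rw [erase_of_nodup 0 1 2 3 (by decide), prod_insert (by decide), prod_insert (by decide),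
        prod_singleton, mul_assoc]
    rw [e2, ← abs_of_nonneg (mul_nonneg (mul_nonneg (hs 1) (hs 2)) (hs 3)), ← abs_mul,
      ← loc_scale]
    congr 2 <;> funext y <;> exact hh _ _ _ _
  · have e2 : ∏ l ∈ univ.erase (1 : Fin 4), s l = s 0 * s 2 * s 3 := by
      rw [erase_of_nodup 1 0 2 3 (by decide), prod_insert (by decide), prod_insert (by decide),
        prod_singleton, mul_assoc]
    rw [e2, ← abs_of_nonneg (mul_nonneg (mul_nonneg (hs 0) (hs 2)) (hs 3)), ← abs_mul,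
      ← loc_scale]
    congr 2 <;> funext y <;> exact hh _ _ _ _
  · have e2 : ∏ l ∈ univ.erase (2 : Fin 4), s l = s 1 * s 0 * s 3 := by
      rw [erase_of_nodup 2 1 0 3 (by decide), prod_insert (by decide), prod_insert (by decide),
        prod_singleton, mul_assoc]
    rw [e2, ← abs_of_nonneg (mul_nonneg (mul_nonneg (hs 1) (hs 0)) (hs 3)), ← abs_mul,
      ← loc_scale]
    congr 2 <;> funext y <;> exact hh _ _ _ _
  · have e2 : ∏ l ∈ univ.erase (3 : Fin 4), s l = s 2 * s 0 * s 1 := by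
      rw [erase_of_nodup 3 2 0 1 (by decide), prod_insert (by decide), prod_insert (by decide),
        prod_singleton, mul_assoc]
    rw [e2, ← abs_of_nonneg (mul_nonneg (mul_nonneg (hs 2) (hs 0)) (hs 1)), ← abs_mul,
      ← loc_scale]
    congr 2 <;> funext y <;> exact hh _ _ _ _

/-- **`CEOut` with a scaled companion** `f c`: local energy `s² A`, scalar level
`s A 2 ^ (-(1 - e.c) j)`. -/
theorem CEOut.scale {e : Ex} {A C G : ℝ} (h : CEOut e A C G) {n j : ℕ} {b : Bool}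
    {gd ud : ℕ → ℤ → Prop} {Λ : ℕ} {x : ℤ} (hR : Rgn (gb n b) gd Λ x ud) {o : ℤ}
    (ho : o = 1 ∨ o = -1) {m a c d : Fin 4} (hn : [m, a, c, d].Nodup) {f : Fin 4 → ℤ → ℝ}
    {ez s : ℝ} (hez : 0 ≤ ez) (hs : 0 < s) (hEa : En (gb n b) ud (f a) A)
    (hUa : Un ((e.T n).sys.S j b a) A ud (f a)) (hEc : En (gb n b) ud (f c) (A * s ^ 2))
    (hUc : SU (shf (n + 7) b) c (A * e2 (-(1 - e.c)) j * s) ud (f c))
    (hEd : En (gb n b) ud (f d) ez) : ∀ K ≤ Λ,
    CostR m o K (C * e2 (-(1 + G)) j * s * √ez) (fun K p u => wP 1 (cube3 K p) u)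
      fun k _ l => kl (alR Λ ud) (f l) k := by
  intro K hK
  have hn' := hn
  simp only [List.nodup_cons, List.mem_cons, List.not_mem_nil, not_or, or_false,
    List.nodup_nil, and_true, not_false_eq_true] at hn'
  obtain ⟨⟨hma, hmc, hmd⟩, ⟨hac, had⟩, hcd⟩ := hn'
  set f' : Fin 4 → ℤ → ℝ := Function.update f c fun y => s⁻¹ * f c y with hf'
  have g1 : f' a = f a := Function.update_of_ne hac _ _
  have g2 : f' c = fun y => s⁻¹ * f c y := Function.update_self _ _ _
  have g3 : f' d = f d := Function.update_of_ne (Ne.symm hcd) _ _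
  have key := h n j b gd ud Λ x hR o ho m a c d hn f' ez hez (by rw [g1]; exact hEa)
    (by rw [g1]; exact hUa) (by rw [g2]; exact en_scale hs hEc le_rfl)
    (by rw [g2]; exact hUc.scale hs le_rfl) (by rw [g3]; exact hEd) K hK
  have key2 := costR_scale (s := fun l => if l = c then s else 1)
    (h := fun k _ l => kl (alR Λ ud) (f l) k) (fun l => by split_ifs <;> linarith)
    (fun k v l y => by
      by_cases hl : l = c
      · rw [hl, if_pos rfl, g2]
        unfold kl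
        split_ifs
        · rw [← mul_assoc, mul_inv_cancel₀ hs.ne', one_mul]
        · rw [mul_zero]
      · rw [if_neg hl, one_mul, hf', Function.update_of_ne hl]) key
  have e1 : ∏ l ∈ univ.erase m, (fun l => if l = c then s else (1 : ℝ)) l = s := by
    rw [prod_of_nodup hn]
    simp [hac, Ne.symm hcd]
  rw [e1] at key2
  have e2 : C * e2 (-(1 + G)) j * s * √ez = s * (C * e2 (-(1 + G)) j * √ez) := by ring
  rw [e2]
  exact key2

end

end Vale.Agent.P141.H444
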