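import Vale.Agent.P141.H444.TopStep
import Vale.Agent.P141.H498.EnAll

/-!
# P141, scale invariant version: the frame without (E)

(E) is a theorem (`H498.enL`), so that the level systems and the boundedness at `(4, 4, 4)`
follow from `StepHyp` alone.
-/

namespace Vale.Agent.P141.H444

open Vale.Agent.P141.H347 (LevelSys2)

/-- **The level systems from the steps alone.** -/
theorem levelSys2_of_step (h : StepHyp) : LevelSys2 := by
  obtain ⟨C, hC, hE⟩ := H498.enL
  exact levelSys2_of_topHyp2 (topHyp2_of_stepHyp hC hE h)

/-- **The boundedness at `(4, 4, 4)` from the steps alone.** -/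
theorem boundedAt_444_of_step (h : StepHyp) : Vale.Agent.P141.BoundedAt 4 4 4 (4 / 3) := by
  obtain ⟨C, hC, hE⟩ := H498.enL
  exact boundedAt_444_of_topHyp2 (topHyp2_of_stepHyp hC hE h)

end Vale.Agent.P141.H444
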