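import Vale.Agent.P141.H444.FibD
import Vale.Agent.P141.H498.ColM

/-!
# P141, line (A): the dense fibres at class data

Class data `Cls` (with majorants `U`), stopping `sst (t ^ (-d)) U.2.1 K`, threshold
`lamD L t C s r = L (r / t) ^ C √s`.

* `lam_ok` : `min 1 (t ^ (-d) s) ≤ lamD`;
* `fib_cls`, `fib_cls_child` : the fibres of the cut `v`;
* `col_cls`, `col_cls_child` : the columns of the cut, number `colD = 8 t ^ (-d) s / lamD`;
* `colD_le` : `colD ≤ 8 L⁻¹ (t / r) ^ (C - d) √s`.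
-/

namespace Vale.Agent.P141.H444.FD

open Finset
open Vale.Agent.P141.PL (Pt ix mem_iv)
open Vale.Agent.P141.PL.H315 (Tri A2)
open Vale.Agent.P141.H48 (sst)
open Vale.Agent.P141.H305 (Cls)

noncomputable section

open scoped Classical

/-- the threshold of the dense fibres -/
def lamD (L t C s r : ℝ) : ℝ := L * ((r / t) ^ C * √s)

theorem lamD_pos {L t C s r : ℝ} (hL : 0 < L) (ht : 0 < t) (hs : 0 < s) (hr : 0 < r) :
    0 < lamD L t C s r := by
  unfold lamD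
  have h1 : 0 < (r / t) ^ C := Real.rpow_pos_of_pos (div_pos hr ht) _
  have h2 := Real.sqrt_pos.2 hs
  positivity

theorem lam_ok {L t C d s r : ℝ} (hL : 1 ≤ L) (ht : 0 < t) (ht1 : t ≤ 1) (hd : 0 ≤ d)
    (hdC : d ≤ C) (hs : 0 < s) (hr : 1 ≤ r) : min 1 (t ^ (-d) * s) ≤ lamD L t C s r := by
  unfold lamD
  have hr0 : 0 < r := by linarith
  have h0 : t⁻¹ ≤ r / t := by
    rw [div_eq_mul_inv]
    have : 0 < t⁻¹ := inv_pos.2 ht
    nlinarith
  have ht' : 1 ≤ t⁻¹ := by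
    rw [← one_div]
    exact (one_le_div ht).2 ht1
  have h1 : t ^ (-d) ≤ (r / t) ^ C := by
    rw [Real.rpow_neg ht.le, ← Real.inv_rpow ht.le]
    exact (Real.rpow_le_rpow_of_exponent_le ht' hdC).trans
      (Real.rpow_le_rpow (inv_nonneg.2 ht.le) h0 (by linarith))
  have h2 : 1 ≤ (r / t) ^ C := Real.one_le_rpow (ht'.trans h0) (by linarith)
  have hq := Real.sqrt_pos.2 hs
  rcases le_total s 1 with h | h
  · refine (min_le_right _ _).trans ?_
    have h3 : s ≤ √s := by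
      have h4 : √s * √s = s := Real.mul_self_sqrt hs.le
      have h5 : √s ≤ 1 := Real.sqrt_le_one.2 h
      nlinarith
    calc t ^ (-d) * s ≤ (r / t) ^ C * √s :=
          mul_le_mul h1 h3 hs.le (by linarith)
      _ ≤ L * ((r / t) ^ C * √s) := by
          have : 0 ≤ (r / t) ^ C * √s := by positivity
          nlinarith
  · refine (min_le_left _ _).trans ?_
    have h3 : 1 ≤ √s := Real.one_le_sqrt.2 h
    have h4 : 1 ≤ (r / t) ^ C * √s := by nlinarith
    nlinarith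

/-- the columns of the cut -/
def colD (L t C d s r : ℝ) : ℝ := 8 * (t ^ (-d) * s) / lamD L t C s r

theorem colD_nonneg {L t C d s r : ℝ} (hL : 0 < L) (ht : 0 < t) (hs : 0 < s) (hr : 0 < r) :
    0 ≤ colD L t C d s r := by
  unfold colD
  have h1 := lamD_pos (C := C) hL ht hs hr
  have h2 : 0 < t ^ (-d) := Real.rpow_pos_of_pos ht _
  positivity

theorem colD_le {L t C d s r : ℝ} (hL : 1 ≤ L) (ht : 0 < t) (hd : 0 ≤ d)
    (hs : 0 < s) (hr : 1 ≤ r) :
    colD L t C d s r ≤ 8 * ((t / r) ^ (C - d) * √s) := by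
  unfold colD lamD
  have hr0 : 0 < r := by linarith
  have hq := Real.sqrt_pos.2 hs
  have hx : 0 < r / t := div_pos hr0 ht
  have hy : 0 < t / r := div_pos ht hr0
  have h1 : 0 < (r / t) ^ C := Real.rpow_pos_of_pos hx _
  have hss : √s * √s = s := Real.mul_self_sqrt hs.le
  have e1 : (r / t) ^ C = ((t / r) ^ C)⁻¹ := by
    rw [← Real.inv_rpow hy.le, inv_div]
  have e2 : t ^ (-d) ≤ (t / r) ^ (-d) := by
    rw [Real.rpow_neg ht.le, Real.rpow_neg hy.le]
    refine inv_anti₀ (Real.rpow_pos_of_pos hy _) (Real.rpow_le_rpow hy.le ?_ hd)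
    rw [div_le_iff₀ hr0]
    nlinarith
  have e3 : (t / r) ^ (C - d) = (t / r) ^ C * (t / r) ^ (-d) := by
    rw [← Real.rpow_add hy]
    congr 1
  have h2 : 0 < (t / r) ^ C := Real.rpow_pos_of_pos hy _
  rw [div_le_iff₀ (by positivity), e3, e1]
  have h3 : 0 < t ^ (-d) := Real.rpow_pos_of_pos ht _
  have h4 : 0 < (t / r) ^ (-d) := Real.rpow_pos_of_pos hy _
  calc 8 * (t ^ (-d) * s) ≤ 8 * ((t / r) ^ (-d) * s) := by
        have := mul_le_mul_of_nonneg_right e2 hs.le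
        linarith
    _ ≤ L * (8 * ((t / r) ^ (-d) * s)) := by
        have : 0 ≤ 8 * ((t / r) ^ (-d) * s) := by positivity
        nlinarith
    _ = 8 * ((t / r) ^ C * (t / r) ^ (-d) * √s) * (L * (((t / r) ^ C)⁻¹ * √s)) := by
        have h5 : (t / r) ^ C * ((t / r) ^ C)⁻¹ = 1 := mul_inv_cancel₀ h2.ne'
        calc L * (8 * ((t / r) ^ (-d) * s))
            = 8 * L * (t / r) ^ (-d) * ((t / r) ^ C * ((t / r) ^ C)⁻¹) * (√s * √s) := by
              rw [h5, hss]; ring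
          _ = _ := by ring

section cls

variable {ι : Type*} [Fintype ι] {K : ℕ} {x : Pt} {L t C d s r P : ℝ} {U : Tri}
  {g : ℤ → ℤ → ℝ} {u v : ℤ → ℤ → ι → ℝ}

theorem cls_hv (H : Cls K x s r P U g u v) : ∀ z ∈ PL.iv K (ix K x.1),
    ∀ y ∈ PL.iv K (ix K x.2.2), v z y ⬝ᵥ v z y ≤ U.2.1 (z, y) ^ 2 :=
  fun z hz y hy => H.v_le z hz y hy

theorem cls_hs (H : Cls K x s r P U g u v) : ∀ z ∈ PL.iv K (ix K x.1),
    ∀ y ∈ PL.iv K (ix K x.2.2), A2 K U.2.1 z y ≤ s := by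
  intro z hz y hy
  rw [H48.A2_congr' U.2.1 (mem_iv.1 hz) (mem_iv.1 hy)]
  exact H.U_v2

theorem cls_pt (H : Cls K x s r P U g u v) (hL : 1 ≤ L) (ht : 0 < t) (ht1 : t ≤ 1) (hd : 0 ≤ d)
    (hdC : d ≤ C) (hs : 0 < s) (hr : 1 ≤ r) : ∀ z ∈ PL.iv K (ix K x.1),
    ∀ y ∈ PL.iv K (ix K x.2.2), ¬ sst (t ^ (-d)) U.2.1 K 0 z y →
      v z y ⬝ᵥ v z y ≤ lamD L t C s r := by
  intro z hz y hy h
  refine le_trans (le_min ?_ ?_) (lam_ok hL ht ht1 hd hdC hs hr)
  · have h1 := H.U_v z hz y hy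
    have h2 := cls_hv H z hz y hy
    nlinarith [h1.1, h1.2]
  · have h2 := mass_sst (Real.rpow_nonneg ht.le (-d)) (cls_hv H) (cls_hs H) (Nat.zero_le K) hz hy h
    have e1 : ∀ c : ℤ, PL.iv 0 (ix 0 c) = {c} := by
      intro c
      ext w
      rw [mem_iv, mem_singleton]
      unfold PL.ix
      simp
    rw [e1, e1, sum_singleton, sum_singleton, pow_zero, mul_one] at h2
    exact h2

/-- **The fibres of the cut `v` at class data.** -/
theorem fib_cls (H : Cls K x s r P U g u v) (hL : 1 ≤ L) (ht : 0 < t) (ht1 : t ≤ 1) (hd : 0 ≤ d)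
    (hdC : d ≤ C) (hs : 0 < s) (hr : 1 ≤ r) :
    ∀ k ≤ K, ∀ z ∈ PL.iv K (ix K x.1), ∀ y ∈ PL.iv K (ix K x.2.2),
      ¬ sst (t ^ (-d)) U.2.1 K k z y →
      ∑ y' ∈ PL.iv k (ix k y),
        ((if Dv (t ^ (-d)) U.2.1 K (lamD L t C s r) v z y' then 0 else v z y') ⬝ᵥ
          (if Dv (t ^ (-d)) U.2.1 K (lamD L t C s r) v z y' then 0 else v z y')) ≤
        lamD L t C s r * 2 ^ k := by
  intro k hk z hz y hy h
  have hr0 : 0 < r := by linarith
  have h1 := fib (K := K) (P := sst (t ^ (-d)) U.2.1 K) (lam := lamD L t C s r)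
    (M := lamD L t C s r) (f := fun z y => v z y ⬝ᵥ v z y) (stP_sst _ _ K)
    (R := ix K x.1) (S := ix K x.2.2) (fun z y => dot_nn _)
    (cls_pt H hL ht ht1 hd hdC hs hr) le_rfl (lamD_pos (by linarith) ht hs hr0).le k hk z hz y hy h
  refine (sum_congr rfl fun y' _ => ?_).trans_le h1
  by_cases hD : Dv (t ^ (-d)) U.2.1 K (lamD L t C s r) v z y'
  · rw [if_pos hD, if_pos ((Dv_eq z y').1 hD), dotProduct_zero]
  · rw [if_neg hD, if_neg fun h' => hD ((Dv_eq z y').2 h')]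

/-- the same one scale below a square which is not stopped -/
theorem fib_cls_child (H : Cls K x s r P U g u v) (hL : 1 ≤ L) (ht : 0 < t) (ht1 : t ≤ 1)
    (hd : 0 ≤ d) (hdC : d ≤ C) (hs : 0 < s) (hr : 1 ≤ r) :
    ∀ k < K, ∀ z ∈ PL.iv K (ix K x.1), ∀ y ∈ PL.iv K (ix K x.2.2),
      ¬ sst (t ^ (-d)) U.2.1 K (k + 1) z y →
      ∑ y' ∈ PL.iv k (ix k y),
        ((if Dv (t ^ (-d)) U.2.1 K (lamD L t C s r) v z y' then 0 else v z y') ⬝ᵥ
          (if Dv (t ^ (-d)) U.2.1 K (lamD L t C s r) v z y' then 0 else v z y')) ≤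
        2 * lamD L t C s r * 2 ^ k := by
  intro k hk z hz y hy h
  refine (sum_le_sum_of_subset_of_nonneg (t := PL.iv (k + 1) (ix (k + 1) y)) ?_ fun _ _ _ =>
    dot_nn _).trans ((fib_cls H hL ht ht1 hd hdC hs hr (k + 1) hk z hz y hy h).trans
      (le_of_eq ?_))
  · intro w hw
    rw [mem_iv] at hw ⊢
    exact H48.ix_mono (Nat.le_succ k) hw
  · rw [pow_succ]
    ring

/-- **The columns of the cut at class data.** -/
theorem col_cls (H : Cls K x s r P U g u v) (hL : 1 ≤ L) (ht : 0 < t) (hs : 0 < s)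
    (hr : 1 ≤ r) :
    ∀ k ≤ K, ∀ z ∈ PL.iv K (ix K x.1), ∀ y ∈ PL.iv K (ix K x.2.2),
      ¬ sst (t ^ (-d)) U.2.1 K k z y →
      ∑ z' ∈ PL.iv k (ix k z),
        (if Dv (t ^ (-d)) U.2.1 K (lamD L t C s r) v z' y then (1 : ℝ) else 0) ≤
        colD L t C d s r * 2 ^ k := by
  intro k hk z hz y hy h
  have hr0 : 0 < r := by linarith
  have hl := lamD_pos (C := C) (show 0 < L by linarith) ht hs hr0
  refine (col_sst (Real.rpow_nonneg ht.le (-d)) hs.le hl (cls_hv H) (cls_hs H) k hk z hz y hy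
    h).trans ?_
  refine mul_le_mul_of_nonneg_right ?_ (by positivity)
  unfold colD
  have h3 : 0 < t ^ (-d) := Real.rpow_pos_of_pos ht _
  gcongr
  norm_num

/-- the same one scale below a square which is not stopped -/
theorem col_cls_child (H : Cls K x s r P U g u v) (hL : 1 ≤ L) (ht : 0 < t) (hs : 0 < s)
    (hr : 1 ≤ r) :
    ∀ k < K, ∀ z ∈ PL.iv K (ix K x.1), ∀ y ∈ PL.iv K (ix K x.2.2),
      ¬ sst (t ^ (-d)) U.2.1 K (k + 1) z y →
      ∑ z' ∈ PL.iv k (ix k z),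
        (if Dv (t ^ (-d)) U.2.1 K (lamD L t C s r) v z' y then (1 : ℝ) else 0) ≤
        colD L t C d s r * 2 ^ k := by
  intro k hk z hz y hy h
  have hr0 : 0 < r := by linarith
  have hl := lamD_pos (C := C) (show 0 < L by linarith) ht hs hr0
  exact col_sst_child (Real.rpow_nonneg ht.le (-d)) hs.le hl (cls_hv H) (cls_hs H) k hk z hz y hy
    h

end cls

end

end Vale.Agent.P141.H444.FD
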