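import Vale.Agent.P141.H444.PayG
import Vale.Agent.P141.H347.First5

/-!
# P141, scale invariant version: the first level for the total systems

`firstB2_sys`: `FirstB2` for `TSys.sys` from (E) at the level one and the domination of the cost
of the generic tests (companions locally in `L²`) by their weights.
-/

namespace Vale.Agent.P141.H444

open Finset
open Vale.Agent.P141.H347 (Dat2 Root2)
open Vale.Agent.P141.H347.Fi (Pay firstB2_of)
open Vale.Agent.P141.H782 (gb LSys LSys.S LSys.w used)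
open Vale.Agent.P141.H736 (cost)
open Vale.Agent.P141.H922 (CgP)

noncomputable section

/-- the local energy of the companions in the first level -/
def CE0 : ℝ := 34 * 4 + 4

theorem CE0_nonneg : 0 ≤ CE0 := by unfold CE0; norm_num

/-- the weights of the generic tests of one level dominate the cost, companions locally in `L²` -/
def GenL {n : ℕ} {κ' : Type} (t : TSys n κ') (l : ℕ) (cg : ℝ) : Prop :=
  ∀ o : ℤ, o = 1 ∨ o = -1 → ∀ b m k x i, (t.P l b m).live k i →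
    cost (fun _ => l2c (gb n b) CE0 CE0_nonneg) o m ((t.P l b m).ψ i) k ((gb n b).cube k x) ≤
      cg * (t.P l b m).W k ((gb n b).cube k x) i

/-- **The first level for the total systems.** -/
theorem firstB2_sys {Ce : ℝ} (hCe : 0 ≤ Ce) (hE : EnL Ce) {Cg : ℝ} (hCg : CgP ≤ Cg) :
    ∃ C1 : ℝ, 0 ≤ C1 ∧ ∀ (n : ℕ) (P : ℝ), 0 ≤ P → Root2 n P → ∀ (κ' : Type) (t : TSys n κ')
      (j0 : ℕ) (ρ : ℝ), 0 < ρ → ρ < 1 → 1 ≤ t.K j0 → (∀ b i, (t.P j0 b i).C ≤ Cg) →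
      ∀ cg : ℝ, 0 ≤ cg → GenL t j0 cg → ∀ f o K V 𝒩, Dat2 n f o K V 𝒩 → ∀ C : ℝ, C1 ≤ C →
        FirstB2 t.sys ρ C (C1 * ((t.δ j0)⁻¹ + cg) * (2 * t.K j0) ^ 2 * (ρ ^ j0)⁻¹) j0 (1 + P)
          f o K V 𝒩 := by
  have hCg0 : 0 ≤ Cg := (Vale.Agent.P141.H922.CgP_nonneg).trans hCg
  obtain ⟨C1, hC1, h⟩ := firstB2_of hCg0
  set D : ℝ := 16 * (Ce * (CE0 * √CE0)) + 2 * Cg + 1 with hD
  have hE0 : 0 ≤ CE0 * √CE0 := mul_nonneg CE0_nonneg (Real.sqrt_nonneg _)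
  have hD1 : 1 ≤ D := by
    have : 0 ≤ Ce * (CE0 * √CE0) := mul_nonneg hCe hE0
    rw [hD]; linarith
  refine ⟨C1 * D, mul_nonneg hC1 (by linarith), ?_⟩
  intro n P hP hroot κ' t j0 ρ hρ0 hρ1 hK hPC cg hcg hgen f o K V 𝒩 hd C hC
  have hδ := t.pos j0
  set c : ℝ := 16 * (Ce * (CE0 * √CE0)) / t.δ j0 + 2 * Cg * cg with hc
  have hc0 : 0 ≤ c := by positivity
  have key := h n P hP hroot _ t.sys j0 ρ hρ0 hρ1
    (fun b i => t.mix_sys hCg (hPC b i)) (2 * t.K j0) (by linarith)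
    (fun b i => t.l2W_sys j0 b i) c hc0 f o K V 𝒩 hd
    (fun b => pay_total hCe hE t j0 b hd.ho CE0_nonneg hcg (fun m => hPC b m)
      (fun m k x i hi => hgen o hd.ho b m k x i hi) K (used n K V f b)) C
    (le_trans (le_mul_of_one_le_right hC1 hD1) hC)
  obtain ⟨𝒞, h1, h2⟩ := key
  refine ⟨𝒞, h1, fun b i => (h2 b i).trans ?_⟩
  refine mul_le_mul_of_nonneg_right (add_le_add ?_ le_rfl) (by positivity)
  have h3 : c ≤ D * ((t.δ j0)⁻¹ + cg) := by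
    have hi : 0 < (t.δ j0)⁻¹ := inv_pos.2 hδ
    have e1 : c = 16 * (Ce * (CE0 * √CE0)) * (t.δ j0)⁻¹ + 2 * Cg * cg := by
      rw [hc, div_eq_mul_inv]
    rw [e1, hD]
    have g1 : 0 ≤ 16 * (Ce * (CE0 * √CE0)) := by positivity
    nlinarith [mul_nonneg g1 hcg, mul_nonneg hCg0 hi.le, hi, hcg]
  have h4 : 0 ≤ C1 * (2 * t.K j0) ^ 2 * (ρ ^ j0)⁻¹ := by positivity
  calc C1 * c * (2 * t.K j0) ^ 2 * (ρ ^ j0)⁻¹ = C1 * (2 * t.K j0) ^ 2 * (ρ ^ j0)⁻¹ * c := by ring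
    _ ≤ C1 * (2 * t.K j0) ^ 2 * (ρ ^ j0)⁻¹ * (D * ((t.δ j0)⁻¹ + cg)) :=
        mul_le_mul_of_nonneg_left h3 h4
    _ = _ := by ring

end

end Vale.Agent.P141.H444
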