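import Vale.Agent.P141.H444.PayGen
import Vale.Agent.P141.H444.FirstSys
import Vale.Agent.P141.H829.GenL

/-!
# P141, scale invariant version: the cost of a generic test is at most its local scalar mass

* `rgN`: the cells between a set of nodes and a top cell, a region;
* `cost_le_lsc`: if the static companions of the class have the scalar cost `P`, the cost of a
  generic test on a cell below its root is at most `8 P · lsc`;
* `cost_l2c_le`: companions only locally in `L²`, from (E) at the level one;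
* `cost_clZ_le`: two scalar-uniform companions and an arbitrary one, from (E);
* `genL_of_floor`: hence the weights of the total systems with the floor `φ' · lsc` dominate the
  cost with three arbitrary companions (`GenL`), without any such class in the weights.
-/

namespace Vale.Agent.P141.H444

open Finset
open Vale.Agent.P141.H315 (Grid dot dot_self_nonneg)
open Vale.Agent.P141.PL (Pt el fc)
open Vale.Agent.P141.PL.H315 (le cube3 Tri)
open Vale.Agent.P141.PL.H571 (W)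
open Vale.Agent.P141.PL.H95 (gr mem_gr card_gr shf)
open Vale.Agent.P141.PL.H318
open Vale.Agent.P141.PL.H855 (wN TT wN_congr update_apply_node wN_update_zero wN_update_add
  wN_update_smul)
open Vale.Agent.P141.H347 (LW cd lwt pwD)
open Vale.Agent.P141.H347.Tr (CostR)
open Vale.Agent.P141.H347.Fi (Nd)
open Vale.Agent.P141.H782 (gb LSys LSys.S LSys.w)
open Vale.Agent.P141.H8 (Rgn En Un)
open Vale.Agent.P141.H48 (Alv kl ESl USl)
open Vale.Agent.P141.H922 (wP wP_nonneg sysP sysPT)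
open Vale.Agent.P141.H736 (Cls CW PSys Blw val vals vals_nonempty cost stc stOk Stat stcP mixed_sysP
  one_le_CgP Fg psg noneS mixed_none Mixed)
open Vale.Agent.P141.H829 (lsc lsw lsw_eq_lwt lsc_nonneg)

noncomputable section

open scoped Classical

/-! ### The region of a set of nodes -/

section region

variable {σ : ℤ}

/-- the cells between the nodes `𝒩` and the scale `Λ` -/
def rgN (σ : ℤ) (Λ : ℕ) (𝒩 : Finset (ℕ × ℤ)) (l : ℕ) (y : ℤ) : Prop :=
  l ≤ Λ ∧ ∃ N ∈ 𝒩, N.1 ≤ l ∧ y ∈ (gr 7 σ).cube l (le N)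

variable {Λ : ℕ} {x : ℤ} {𝒩 : Finset (ℕ × ℤ)}

theorem rgn_rgN (h : Blw (gr 7 σ) Λ ((gr 7 σ).cube Λ x) 𝒩) :
    Rgn (gr 7 σ) (fun _ _ => True) Λ x (rgN σ Λ 𝒩) where
  const k y z hz := by
    have h1 := (gr 7 σ).eq_of_mem k y z hz
    constructor
    · rintro ⟨h2, N, h3, h4, h5⟩
      refine ⟨h2, N, h3, h4, ?_⟩
      have h6 := (gr 7 σ).eq_of_mem k (le N) z h5
      rw [← h6, h1]
      exact (gr 7 σ).mem k y
    · rintro ⟨h2, N, h3, h4, h5⟩
      refine ⟨h2, N, h3, h4, ?_⟩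
      have h6 := (gr 7 σ).eq_of_mem k (le N) y h5
      rw [← h6]
      exact hz
  up k hk y := by
    rintro ⟨_, N, h3, h4, h5⟩
    exact ⟨hk, N, h3, by omega, (gr 7 σ).sub _ _ h5⟩
  bel k y := by
    rintro ⟨h2, N, h3, h4, h5⟩
    refine ⟨h2, ?_⟩
    have h6 := (h N h3).2.2.2
    rw [← (gr 7 σ).eq_of_mem Λ x _ h6]
    exact (gr 7 σ).sub_le h2 _ h5
  sub _ _ _ := trivial

theorem nd_rgN (h : Blw (gr 7 σ) Λ ((gr 7 σ).cube Λ x) 𝒩) : Nd σ (rgN σ Λ 𝒩) 𝒩 := fun N hN =>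
  ⟨(h N hN).1, (h N hN).2.2.1, (h N hN).2.1, N, hN, le_rfl, (gr 7 σ).mem _ _⟩

/-- energy and tests on the region from `Stat` -/
theorem en_of_stat {ι : Type*} {S : CSys (gr 7 σ) ι} {E : ℝ} {O : ℤ → ℝ}
    (hO : Stat S E Λ 𝒩 O) : En (gr 7 σ) (rgN σ Λ 𝒩) O E := by
  rintro k y ⟨h2, N, h3, h4, h5⟩
  have h6 := (hO N h3 k h4 h2).2
  rw [(gr 7 σ).eq_of_mem k (le N) y h5]
  refine h6.trans (le_of_eq ?_)
  unfold cd
  rw [(gr 7 σ).eq_of_mem k (le N) y h5]

theorem un_of_stat {ι : Type*} {S : CSys (gr 7 σ) ι} {E : ℝ} {O : ℤ → ℝ}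
    (hO : Stat S E Λ 𝒩 O) : Un S 1 (rgN σ Λ 𝒩) O := by
  rintro k y ⟨h2, N, h3, h4, h5⟩ i
  have h6 := (hO N h3 k h4 h2).1 i
  rw [(gr 7 σ).eq_of_mem k (le N) y h5, one_mul]
  exact h6

/-- the tests of the pair system -/
theorem su_of_stat {r : Fin 4} {dc : ℝ} (hdc : 0 < dc) {E : ℝ} {O : ℤ → ℝ}
    (hO : Stat (sysP 7 σ (fc r) (csz_fc_7 r) dc hdc) E Λ 𝒩 O) :
    SU σ r dc (rgN σ Λ 𝒩) O := by
  intro k y hy u
  have h := un_of_stat hO k y hy u
  rw [one_mul] at h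
  exact h

end region

/-! ### The cost of a generic test -/

theorem sum_list_update (o : ℤ) (f : Fin 4 → ℤ → ℝ) (m : Fin 4) (l : List Tri)
    (a : Tri → ℤ → ℝ) (𝒩 : Finset (ℕ × ℤ)) :
    ∑ N ∈ 𝒩, |wN o (Function.update f m (l.map a).sum) N| ≤
      (l.map fun u => ∑ N ∈ 𝒩, |wN o (Function.update f m (a u)) N|).sum := by
  induction l with
  | nil =>
    rw [List.map_nil, List.sum_nil, List.map_nil, List.sum_nil]
    refine le_of_eq (sum_eq_zero fun N _ => ?_)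
    rw [wN_update_zero, abs_zero]
  | cons u l ih =>
    rw [List.map_cons, List.sum_cons, List.map_cons, List.sum_cons]
    refine le_trans ?_ (add_le_add le_rfl ih)
    rw [← sum_add_distrib]
    refine sum_le_sum fun N _ => ?_
    rw [wN_update_add]
    exact abs_add_le _ _

section cost

variable {σ : ℤ} {Λ : ℕ} {x : ℤ}

/-- **The cost of a generic test is at most its local scalar mass**, times the scalar cost of the
companions of the class. -/
theorem cost_le_lsc (κ : Fin 4 → Cls (gr 7 σ)) {o : ℤ} (ho : o = 1 ∨ o = -1) (m : Fin 4) {P : ℝ}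
    (hP : 0 ≤ P)
    (hκ : ∀ (𝒩 : Finset (ℕ × ℤ)) (A : Fin 4 → (ℕ × ℤ) → ℤ → ℝ),
      Blw (gr 7 σ) Λ ((gr 7 σ).cube Λ x) 𝒩 →
      (∀ j, j ≠ m → (κ j).ok Λ ((gr 7 σ).cube Λ x) 𝒩 (A j)) → ∃ f : Fin 4 → ℤ → ℝ,
        (∀ j, j ≠ m → ∀ N ∈ 𝒩, ∀ y ∈ (gr 7 σ).cube N.1 (le N), A j N y = f j y) ∧
        ∀ K ≤ Λ, CostR m o K P (fun K p u => wP 1 (cube3 K p) u)
          fun k _ j => kl (alR Λ (rgN σ Λ 𝒩)) (f j) k) (i : Fg) (hi : Λ ≤ i.1) :
    cost κ o m (psg (fc m) i) Λ ((gr 7 σ).cube Λ x) ≤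
      8 * P * lsc 7 σ (fc m) Λ ((gr 7 σ).cube Λ x) i := by
  refine csSup_le (vals_nonempty κ o m _ Λ x) ?_
  rintro r ⟨𝒩, A, hb, hA, rfl⟩
  obtain ⟨f, hf, hc⟩ := hκ 𝒩 A hb hA
  have hR := rgn_rgN hb
  have hW := nd_rgN hb
  -- static companions
  have e1 : Vale.Agent.P141.H736.val o m (psg (fc m) i) 𝒩 A =
      ∑ N ∈ 𝒩, |wN o (Function.update f m (psg (fc m) i)) N| := by
    unfold Vale.Agent.P141.H736.val TT
    refine sum_congr rfl fun N hN => ?_
    rw [update_apply_node]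
    congr 1
    refine wN_congr ho fun j y hy => ?_
    by_cases hj : j = m
    · subst hj
      rw [Function.update_self, Function.update_self]
    · rw [Function.update_of_ne hj, Function.update_of_ne hj]
      exact hf j hj N hN y ((hb N hN).2.2.1 hy)
  rw [e1]
  -- the atoms of the representation
  have e2 : ∑ N ∈ 𝒩, |wN o (Function.update f m (psg (fc m) i)) N| =
      (4 ^ i.1 : ℝ)⁻¹ * ∑ N ∈ 𝒩, |wN o (Function.update f m
        (i.2.2.map fun u => a1 (fc m) i.1 (i.2.1, u)).sum) N| := by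
    rw [mul_sum]
    refine sum_congr rfl fun N _ => ?_
    unfold psg
    rw [wN_update_smul, abs_mul, abs_of_pos (by positivity : (0 : ℝ) < (4 ^ i.1 : ℝ)⁻¹)]
  rw [e2]
  have h1 := sum_list_update o f m i.2.2 (fun u => a1 (fc m) i.1 (i.2.1, u)) 𝒩
  have h2 : ∀ u : Tri, ∑ N ∈ 𝒩, |wN o (Function.update f m (a1 (fc m) i.1 (i.2.1, u))) N| ≤
      8 * P * lsw (pwD 1 zero_le_one) 7 σ (fc m) i.1 Λ ((gr 7 σ).cube Λ x) i.2.1 u := by
    intro u
    rw [lsw_eq_lwt hi]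
    exact sum_pay_scalar hR ho m hP hc hW hi (i.2.1, u)
  have h3 : (i.2.2.map fun u => ∑ N ∈ 𝒩, |wN o (Function.update f m
      (a1 (fc m) i.1 (i.2.1, u))) N|).sum ≤ 8 * P * (i.2.2.map fun u =>
        lsw (pwD 1 zero_le_one) 7 σ (fc m) i.1 Λ ((gr 7 σ).cube Λ x) i.2.1 u).sum := by
    induction i.2.2 with
    | nil => simp
    | cons u l ih =>
      rw [List.map_cons, List.sum_cons, List.map_cons, List.sum_cons, mul_add]
      exact add_le_add (h2 u) ih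
  have h4 := mul_le_mul_of_nonneg_left (h1.trans h3)
    (by positivity : (0 : ℝ) ≤ (4 ^ i.1 : ℝ)⁻¹)
  refine h4.trans (le_of_eq ?_)
  unfold lsc
  ring

/-- **Three arbitrary companions.** -/
theorem cost_l2c_le {C : ℝ} (hC : 0 ≤ C) (hE : EnL C) {CE : ℝ} (hCE : 0 ≤ CE) {o : ℤ}
    (ho : o = 1 ∨ o = -1) (m : Fin 4) (i : Fg) (hi : Λ ≤ i.1) :
    cost (fun _ => l2c (gr 7 σ) CE hCE) o m (psg (fc m) i) Λ ((gr 7 σ).cube Λ x) ≤
      8 * (C * (CE * √CE)) * lsc 7 σ (fc m) Λ ((gr 7 σ).cube Λ x) i := by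
  refine cost_le_lsc _ ho m (mul_nonneg hC (mul_nonneg hCE (Real.sqrt_nonneg _))) ?_ i hi
  intro 𝒩 A hb hA
  have h1 : ∀ j, ∃ O : ℤ → ℝ, j ≠ m → (∀ N ∈ 𝒩, ∀ y ∈ (gr 7 σ).cube N.1 (le N), A j N y = O y) ∧
      Stat (noneS (gr 7 σ)) CE Λ 𝒩 O := by
    intro j
    by_cases hj : j = m
    · exact ⟨0, fun h => absurd hj h⟩
    · obtain ⟨O, h2, h3⟩ := hA j hj
      exact ⟨O, fun _ => ⟨h2, h3⟩⟩
  choose f hf using h1
  refine ⟨f, fun j hj => (hf j hj).1, fun K hK => ?_⟩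
  exact hE σ _ (alv_alR (rgn_rgN hb)) Λ CE hCE f m
    (fun j hj => esl_alR (en_of_stat (hf j hj).2)) o ho K hK

/-- **Two scalar-uniform companions and an arbitrary one.** -/
theorem cost_clZ_le {C ε : ℝ} (hC : 0 ≤ C) (hE : EnOut C ε) {κ : Fin 4 → Cls (gr 7 σ)} {o : ℤ}
    (ho : o = 1 ∨ o = -1) {m a b d : Fin 4} (hn : [m, a, b, d].Nodup) {dc : ℝ} (hdc : 0 < dc)
    {E : ℝ} (hE0 : 0 ≤ E) (hdE : dc ^ 2 ≤ E) (hκd : κ d = l2c (gr 7 σ) E hE0)
    (hκ : ∀ l, l ≠ d → κ l = stcP 7 σ (fc l) (csz_fc_7 l) dc hdc E hE0) (i : Fg)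
    (hi : Λ ≤ i.1) : cost κ o m (psg (fc m) i) Λ ((gr 7 σ).cube Λ x) ≤
      8 * (C * ((dc * dc) ^ (1 / 2 - ε) * (E * E) ^ (1 / 4 + ε / 2)) * √E) *
        lsc 7 σ (fc m) Λ ((gr 7 σ).cube Λ x) i := by
  refine cost_le_lsc _ ho m (by positivity) ?_ i hi
  intro 𝒩 A hb hA
  have hn' := hn
  simp only [List.nodup_cons, List.mem_cons, List.not_mem_nil, not_or, or_false,
    List.nodup_nil, and_true, not_false_eq_true] at hn'
  obtain ⟨⟨hma, hmb, hmd⟩, ⟨hab, had⟩, hbd⟩ := hn'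
  have hAa := hA a (Ne.symm hma)
  have hAb := hA b (Ne.symm hmb)
  have hAd := hA d (Ne.symm hmd)
  rw [hκ a had] at hAa
  rw [hκ b hbd] at hAb
  rw [hκd] at hAd
  obtain ⟨Oa, ha1, ha2⟩ := hAa
  obtain ⟨Ob, hb1, hb2⟩ := hAb
  obtain ⟨Od, hd1, hd2⟩ := hAd
  set f : Fin 4 → ℤ → ℝ := fun l => if l = a then Oa else if l = b then Ob else Od with hf
  have f1 : f a = Oa := by simp [hf]
  have f2 : f b = Ob := by simp [hf, Ne.symm hab]
  have f3 : f d = Od := by simp [hf, Ne.symm had, Ne.symm hbd]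
  refine ⟨f, ?_, ?_⟩
  · intro j hj
    have hj' : j ∈ ({a, b, d} : Finset (Fin 4)) := by
      rw [← erase_of_nodup m a b d hn]
      exact mem_erase.2 ⟨hj, mem_univ _⟩
    simp only [mem_insert, mem_singleton] at hj'
    rcases hj' with h | h | h
    · rw [h, f1]; exact ha1
    · rw [h, f2]; exact hb1
    · rw [h, f3]; exact hd1
  · refine scal_half_en hE (rgn_rgN hb) ho hn hdc.le hdE hdc.le hdE hE0 ?_ ?_ ?_ ?_ ?_
    · rw [f1]; exact en_of_stat ha2
    · rw [f1]; exact su_of_stat hdc ha2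
    · rw [f2]; exact en_of_stat hb2
    · rw [f2]; exact su_of_stat hdc hb2
    · rw [f3]; exact en_of_stat hd2

end cost

/-- **`GenL` from the floor**: the weights dominate the local scalar masses. -/
theorem genL_of_floor {C : ℝ} (hC : 0 ≤ C) (hE : EnL C) {n : ℕ} (t : TSys n Fg) (l : ℕ) {cφ : ℝ}
    (hψ : ∀ b m i, (t.P l b m).ψ i = psg (fc m) i) (hlive : ∀ b m k i, (t.P l b m).live k i →
      k ≤ i.1) (hW : ∀ b m k x i, lsc 7 (shf (n + 7) b) (fc m) k ((gb n b).cube k x) i ≤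
      cφ * (t.P l b m).W k ((gb n b).cube k x) i) :
    GenL t l (8 * (C * (CE0 * √CE0)) * cφ) := by
  intro o ho b m k x i hi
  rw [hψ b m i]
  refine (cost_l2c_le hC hE CE0_nonneg ho m i (hlive b m k i hi)).trans ?_
  rw [mul_assoc (8 * (C * (CE0 * √CE0)))]
  exact mul_le_mul_of_nonneg_left (hW b m k x i)
    (mul_nonneg (by norm_num) (mul_nonneg hC (mul_nonneg CE0_nonneg (Real.sqrt_nonneg _))))

end

end Vale.Agent.P141.H444
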