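import Vale.Agent.P141.H782.Top1
import Vale.Agent.P141.H922.PairW

/-!
# P141, scale invariant version: the limit of the levels for the pair weight

* `n2_le_of_abs`, `n4_le_of_abs`, `nN_le_of_abs`, `pw3_le_of_abs`: bounds by the values;
* `nd_limP`: the node form of a function which is uniform in the pair weight `wP δ` and of three
  bounded functions is at most `3 · 2 ^ k · δ · B ^ 3`;
* `nd_lim_energy`: the same with energies instead of bounds.
-/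

namespace Vale.Agent.P141.H444

open Finset
open Vale.Agent.P141.H315 (Grid dot)
open Vale.Agent.P141.PL (Pt el fc lift Bx iv)
open Vale.Agent.P141.PL.H315 (le cube3 Tri atm avg avg_nonneg)
open Vale.Agent.P141.PL.H314 (nd Win nd_congr nd_eq)
open Vale.Agent.P141.PL.H95 (gr gr_cube)
open Vale.Agent.P141.H782 (iv_eq3 abs_le_of_dot)
open Vale.Agent.P141.H922 (n2 n4 nN n2_nonneg n4_nonneg nN_nonneg pw3 pw3_nonneg wP wP_nonneg)

noncomputable section

theorem avg_le_of_le {X : Type*} {Q : Finset X} {F : X → ℝ} {A : ℝ} (hA : 0 ≤ A)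
    (h : ∀ x ∈ Q, F x ≤ A) : avg Q F ≤ A := by
  rcases Q.eq_empty_or_nonempty with rfl | hQ
  · unfold avg; simpa using hA
  · have hc : (0 : ℝ) < Q.card := by exact_mod_cast hQ.card_pos
    unfold avg
    rw [inv_mul_le_iff₀ hc, ← nsmul_eq_mul]
    exact sum_le_card_nsmul _ _ _ h

theorem n2_le_of_abs {X : Type*} {Q : Finset X} {f : X → ℝ} {B : ℝ} (hB : 0 ≤ B)
    (hf : ∀ x ∈ Q, |f x| ≤ B) : n2 Q f ≤ B := by
  refine Real.sqrt_le_iff.2 ⟨hB, avg_le_of_le (by positivity) fun x hx => ?_⟩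
  have h := pow_le_pow_left₀ (abs_nonneg _) (hf x hx) 2
  rwa [sq_abs] at h

theorem n4_le_of_abs {X : Type*} {Q : Finset X} {f : X → ℝ} {B : ℝ} (hB : 0 ≤ B)
    (hf : ∀ x ∈ Q, |f x| ≤ B) : n4 Q f ≤ B := by
  refine Real.sqrt_le_iff.2 ⟨hB, Real.sqrt_le_iff.2 ⟨by positivity, ?_⟩⟩
  refine avg_le_of_le (by positivity) fun x hx => ?_
  have h := pow_le_pow_left₀ (abs_nonneg _) (hf x hx) 4
  have e : |f x| ^ 4 = f x ^ 4 := by rw [← abs_pow, abs_of_nonneg (by positivity)]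
  rw [e] at h
  linarith [h, (by ring : (B ^ 2) ^ 2 = B ^ 4)]

theorem nN_le_of_abs {X : Type*} {Q : Finset X} {f : X → ℝ} {B : ℝ} (hB : 0 ≤ B)
    (hf : ∀ x ∈ Q, |f x| ≤ B) : nN Q f ≤ B := by
  refine Real.sqrt_le_iff.2 ⟨hB, ?_⟩
  rw [sq]
  exact mul_le_mul (n2_le_of_abs hB hf) (n4_le_of_abs hB hf) (n4_nonneg _ _) hB

/-- the sum over the pairs of edges with bounded values -/
theorem pw3_le_of_abs {Q : Finset (ℤ × ℤ × ℤ)} {u : Tri} {B : ℝ} (hB : 0 ≤ B)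
    (h12 : ∀ y ∈ Q, |Vale.Agent.P141.PL.H315.e12 u.1 y| ≤ B)
    (h13 : ∀ y ∈ Q, |Vale.Agent.P141.PL.H315.e13 u.2.1 y| ≤ B)
    (h23 : ∀ y ∈ Q, |Vale.Agent.P141.PL.H315.e23 u.2.2 y| ≤ B) : pw3 Q u ≤ 3 * B ^ 3 := by
  unfold pw3
  have m : ∀ {a b c : ℝ}, 0 ≤ b → 0 ≤ c → a ≤ B → b ≤ B → c ≤ B → a * b * c ≤ B ^ 3 :=
    fun hb hc h1 h2 h3 => by
      have h4 := mul_le_mul (mul_le_mul h1 h2 hb hB) h3 hc (mul_nonneg hB hB)
      linarith [h4, (by ring : B * B * B = B ^ 3)]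
  have a1 := m (nN_nonneg _ _) (n2_nonneg _ _) (nN_le_of_abs hB h12) (nN_le_of_abs hB h13)
    (n2_le_of_abs hB h23)
  have a2 := m (nN_nonneg _ _) (n2_nonneg _ _) (nN_le_of_abs hB h12) (nN_le_of_abs hB h23)
    (n2_le_of_abs hB h13)
  have a3 := m (nN_nonneg _ _) (n2_nonneg _ _) (nN_le_of_abs hB h13) (nN_le_of_abs hB h23)
    (n2_le_of_abs hB h12)
  linarith

/-- **The node form of a function uniform in the pair weight and three bounded functions.** -/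
theorem nd_limP {o : ℤ} (ho : o = 1 ∨ o = -1) {k : ℕ} (hk : 1 ≤ k) {v s : ℤ}
    (hW : Win k v ⊆ (gr 7 s).cube k (le (k, v))) {δ B : ℝ} (hδ : 0 ≤ δ)
    (hB : 0 ≤ B) {f : Fin 4 → ℤ → ℝ}
    (hu : ∀ t : Pt × Tri, |dot ((gr 7 s).cube k (le (k, v))) (f 0)
      (Vale.Agent.P141.PL.H318.a1 (fc 0) k t)| ≤ wP δ (cube3 k t.1) t.2)
    (hf : ∀ j : Fin 4, j ≠ 0 → ∀ y ∈ Win k v, |f j y| ≤ B) :
    |nd o k v f| ≤ 3 * (2 ^ k * δ * B ^ 3) := by
  classical
  -- truncate the functions outside the window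
  set g : Fin 4 → ℤ → ℝ := fun j y => if y ∈ Win k v then f j y else 0 with hg
  have hgB : ∀ j : Fin 4, j ≠ 0 → ∀ y, |g j y| ≤ B := by
    intro j hj y
    simp only [hg]
    split_ifs with hy
    · exact hf j hj y hy
    · rw [abs_zero]; exact hB
  have e1 : nd o k v f = nd o k v ![f 0, g 1, g 2, g 3] := by
    refine nd_congr ho fun j y hy => ?_
    fin_cases j
    · rfl
    · show f 1 y = g 1 y; simp only [hg, if_pos hy]
    · show f 2 y = g 2 y; simp only [hg, if_pos hy]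
    · show f 3 y = g 3 y; simp only [hg, if_pos hy]
  rw [e1, nd_eq hk]
  simp only [Matrix.cons_val_zero, Matrix.cons_val_one, Matrix.cons_val]
  rw [abs_mul, abs_of_pos (by positivity), inv_mul_le_iff₀ (by positivity)]
  -- the box form as a sum of tests
  set p : Pt := (2 ^ k * v, 0, 0) with hp
  set u : ℤ → Tri := fun x0 =>
    (fun w => Vale.Agent.P141.PL.hs k w.1 * Vale.Agent.P141.PL.hs k w.2 *
      lift 3 (g 3) (x0, w.1, w.2),
     fun w => Vale.Agent.P141.PL.hs k w.2 * lift 2 (g 2) (x0, w.1, w.2),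
     fun w => lift 1 (g 1) (x0, w.1, w.2)) with hu'
  have hcube : cube3 k p = iv k v ×ˢ iv k 0 ×ˢ iv k 0 := by
    have i1 := iv_eq3 k v
    have i0 := iv_eq3 k 0
    rw [mul_zero] at i0
    rw [i1, i0, hp]; rfl
  have hloc : Vale.Agent.P141.PL.loc k (o - 2 - v, v, 0, 0) (lift 0 (f 0)) (lift 1 (g 1))
      (lift 2 (g 2)) (lift 3 (g 3)) = ∑ x0 ∈ iv k (o - 2 - v), Vale.Agent.P141.PL.hs k x0 *
        ∑ y ∈ cube3 k p, f 0 (el (fc 0) y) * atm (u x0) y := by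
    unfold Vale.Agent.P141.PL.loc
    refine sum_congr rfl fun x0 _ => ?_
    rw [hcube, sum_product, mul_sum]
    refine sum_congr rfl fun x1 _ => ?_
    rw [sum_product, mul_sum]
    refine sum_congr rfl fun x2 _ => ?_
    rw [mul_sum]
    refine sum_congr rfl fun x3 _ => ?_
    simp only [hu', atm, Vale.Agent.P141.PL.H315.e12, Vale.Agent.P141.PL.H315.e13,
      Vale.Agent.P141.PL.H315.e23, Vale.Agent.P141.PL.prd, lift]
    ring
  rw [hloc]
  have hk2 : (0 : ℤ) < 2 ^ k := by positivity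
  have hel : ∀ y ∈ cube3 k p, el (fc 0) y ∈ (gr 7 s).cube k (le (k, v)) := by
    intro y hy
    refine hW ?_
    rw [hcube, mem_product, mem_product] at hy
    obtain ⟨h2, h3, h4⟩ := hy
    unfold iv at h2 h3 h4
    rw [mem_Ico] at h2 h3 h4
    unfold Win
    rw [mem_Ico]
    simp only [el, fc]
    constructor
    · nlinarith [h2.1, h3.1, h4.1]
    · nlinarith [h2.2, h3.2, h4.2]
  have hone : ∀ x0 ∈ iv k (o - 2 - v), |Vale.Agent.P141.PL.hs k x0 *
      ∑ y ∈ cube3 k p, f 0 (el (fc 0) y) * atm (u x0) y| ≤ 3 * (δ * 8 ^ k * B ^ 3) := by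
    intro x0 _
    rw [abs_mul, Vale.Agent.P141.PL.abs_hs, one_mul]
    have h2 := hu (p, u x0)
    rw [Vale.Agent.P141.PL.H318.dot_a1] at h2
    have h3 : ∑ y ∈ cube3 k p, (if el (fc 0) y ∈ (gr 7 s).cube k (le (k, v)) then
        f 0 (el (fc 0) y) * atm (u x0) y else 0) =
        ∑ y ∈ cube3 k p, f 0 (el (fc 0) y) * atm (u x0) y :=
      sum_congr rfl fun y hy => if_pos (hel y hy)
    rw [h3] at h2
    refine h2.trans ?_
    unfold wP
    rw [Vale.Agent.P141.PL.H315.card_cube3]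
    push_cast
    have hp3 : pw3 (cube3 k p) (u x0) ≤ 3 * B ^ 3 := by
      refine pw3_le_of_abs hB (fun y _ => ?_) (fun y _ => ?_) fun y _ => ?_
      · simp only [hu', Vale.Agent.P141.PL.H315.e12, lift]
        rw [abs_mul, abs_mul, Vale.Agent.P141.PL.abs_hs, Vale.Agent.P141.PL.abs_hs, one_mul,
          one_mul]
        exact hgB 3 (by decide) _
      · simp only [hu', Vale.Agent.P141.PL.H315.e13, lift]
        rw [abs_mul, Vale.Agent.P141.PL.abs_hs, one_mul]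
        exact hgB 2 (by decide) _
      · simp only [hu', Vale.Agent.P141.PL.H315.e23, lift]
        exact hgB 1 (by decide) _
    calc _ ≤ δ * 8 ^ k * (3 * B ^ 3) := mul_le_mul_of_nonneg_left hp3 (by positivity)
      _ = _ := by ring
  refine (abs_sum_le_sum_abs _ _).trans ((sum_le_card_nsmul _ _ _ hone).trans ?_)
  rw [Vale.Agent.P141.PL.card_iv, nsmul_eq_mul]
  push_cast
  refine le_of_eq ?_
  ring

/-- **The limit**: one node, `δ j → 0`, energies bounded. -/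
theorem lim_nd {o : ℤ} (ho : o = 1 ∨ o = -1) {k : ℕ} (hk : 1 ≤ k) {v s : ℤ}
    (hW : Win k v ⊆ (gr 7 s).cube k (le (k, v))) {δ : ℕ → ℝ} (hδ : ∀ j, 0 ≤ δ j)
    (hlim : ∀ ε : ℝ, 0 < ε → ∃ J, ∀ j, J ≤ j → δ j ≤ ε) {M : ℝ} {j0 : ℕ}
    {f : ℕ → Fin 4 → ℤ → ℝ}
    (hu : ∀ j, j0 ≤ j → ∀ t : Pt × Tri, |dot ((gr 7 s).cube k (le (k, v))) (f j 0)
      (Vale.Agent.P141.PL.H318.a1 (fc 0) k t)| ≤ wP (δ j) (cube3 k t.1) t.2)
    (hf : ∀ j, j0 ≤ j → ∀ i : Fin 4, dot ((gr 7 s).cube k (le (k, v))) (f j i) (f j i) ≤ M)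
    {ε : ℝ} (hε : 0 < ε) : ∃ J, ∀ j, J ≤ j → |nd o k v (f j)| ≤ ε := by
  set B : ℝ := √M with hB
  have hB0 : 0 ≤ B := Real.sqrt_nonneg _
  obtain ⟨J, hJ⟩ := hlim (ε / (3 * (2 ^ k * B ^ 3) + 1)) (by positivity)
  refine ⟨max J j0, fun j hj => ?_⟩
  have hj0 : j0 ≤ j := (le_max_right _ _).trans hj
  have hjJ : J ≤ j := (le_max_left _ _).trans hj
  have key := nd_limP ho hk hW (hδ j) hB0 (f := f j) (hu j hj0)
    (fun i _ y hy => abs_le_of_dot (hf j hj0 i) (hW hy))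
  refine key.trans ?_
  have h2 := hJ j hjJ
  have h3 : 0 ≤ 3 * (2 ^ k * B ^ 3) := by positivity
  calc 3 * (2 ^ k * δ j * B ^ 3) = δ j * (3 * (2 ^ k * B ^ 3)) := by ring
    _ ≤ ε / (3 * (2 ^ k * B ^ 3) + 1) * (3 * (2 ^ k * B ^ 3)) :=
        mul_le_mul_of_nonneg_right h2 h3
    _ ≤ ε := by
      rw [div_mul_eq_mul_div, div_le_iff₀ (by positivity)]
      nlinarith

end

end Vale.Agent.P141.H444
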