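import Vale.Agent.P141.H444.PayG
import Vale.Agent.P141.H736.TfClsP

/-!
# P141, scale invariant version: the payments, abstract halves

* `SU`: scalar uniformity on a region; `su_of_un`, `usl_of_su`, `ok_stcP`, `ok_l2c'`;
* `gen_half`: a generic atom with two scalar-uniform companions and one arbitrary companion, from
  the cost of the class;
* `scal_half_en`: (E) for two scalar-uniform companions, as a cost of the killed functions.
-/

namespace Vale.Agent.P141.H444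

open Finset
open Vale.Agent.P141.H315 (Grid dot dot_self_nonneg)
open Vale.Agent.P141.PL (Pt el fc)
open Vale.Agent.P141.PL.H315 (le cube3 Tri)
open Vale.Agent.P141.PL.H571 (W)
open Vale.Agent.P141.PL.H95 (gr mem_gr card_gr shf)
open Vale.Agent.P141.PL.H318
open Vale.Agent.P141.PL.H855 (wN TT)
open Vale.Agent.P141.H347 (LW cd)
open Vale.Agent.P141.H347.Tr (CostR)
open Vale.Agent.P141.H347.Fi (Nd)
open Vale.Agent.P141.H782 (gb LSys LSys.S LSys.w)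
open Vale.Agent.P141.H8 (Rgn En Un)
open Vale.Agent.P141.H48 (Alv kl ESl USl)
open Vale.Agent.P141.H922 (wP wP_nonneg sysP sysPT)
open Vale.Agent.P141.H736 (Cls CW PSys Blw cost stc stcP mixed_sysP one_le_CgP)

noncomputable section

open scoped Classical

/-! ### Uniformity and energy on a region -/

section region

variable {σ : ℤ} {gd ud : ℕ → ℤ → Prop} {Λ : ℕ} {x : ℤ}

/-- scalar uniformity at the level `d` on the used cells -/
def SU (σ : ℤ) (r : Fin 4) (d : ℝ) (ud : ℕ → ℤ → Prop) (F : ℤ → ℝ) : Prop :=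
  ∀ k y, ud k y → ∀ u : Pt × Tri,
    |dot ((gr 7 σ).cube k y) F (a1 (fc r) k u)| ≤ wP d (cube3 k u.1) u.2

theorem wP_mul (c d : ℝ) (Q : Finset (ℤ × ℤ × ℤ)) (u : Tri) : wP (c * d) Q u = c * wP d Q u := by
  unfold wP
  ring

theorem wP_mono {d d' : ℝ} (h : d ≤ d') (Q : Finset (ℤ × ℤ × ℤ)) (u : Tri) :
    wP d Q u ≤ wP d' Q u := by
  have h1 : (0 : ℝ) ≤ wP 1 Q u := wP_nonneg zero_le_one Q u
  have h2 := wP_mul d 1 Q u
  have h3 := wP_mul d' 1 Q u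
  rw [mul_one] at h2 h3
  rw [h2, h3]
  exact mul_le_mul_of_nonneg_right h h1

theorem SU.mono {r : Fin 4} {d d' : ℝ} {F : ℤ → ℝ} (h : SU σ r d ud F) (hd : d ≤ d') :
    SU σ r d' ud F := fun k y hy u => (h k y hy u).trans (wP_mono hd _ _)

/-- the total systems contain the scalar tests -/
theorem su_of_un {ι : Type*} (r : Fin 4) {δ : ℝ} (hδ : 0 < δ) (P : PSys (gr 7 σ) ι) {C : ℝ}
    {F : ℤ → ℝ} (h : Un (sysPT 7 σ (fc r) (csz_fc_7 r) δ hδ P) C ud F) : SU σ r (C * δ) ud F := by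
  intro k y hy u
  have h1 := h k y hy (Sum.inl u)
  rw [wP_mul]
  exact h1

theorem dot_smul_smul (Q : Finset ℤ) (s : ℝ) (F : ℤ → ℝ) :
    dot Q (fun y => s * F y) (fun y => s * F y) = s ^ 2 * dot Q F F := by
  unfold dot
  rw [mul_sum]
  exact sum_congr rfl fun y _ => by ring

theorem dot_smul_left' (Q : Finset ℤ) (s : ℝ) (F G : ℤ → ℝ) :
    dot Q (fun y => s * F y) G = s * dot Q F G := by
  unfold dot
  rw [mul_sum]
  exact sum_congr rfl fun y _ => by ring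

theorem en_scale {F : ℤ → ℝ} {e E s : ℝ} (hs : 0 < s) (h : En (gr 7 σ) ud F e)
    (he : e ≤ E * s ^ 2) : En (gr 7 σ) ud (fun y => s⁻¹ * F y) E := by
  intro k y hy
  rw [dot_smul_smul]
  have h1 : 0 ≤ cd (gr 7 σ) k y := Nat.cast_nonneg _
  have h2 := (h k y hy).trans (mul_le_mul_of_nonneg_right he h1)
  calc (s⁻¹) ^ 2 * dot ((gr 7 σ).cube k y) F F ≤ (s⁻¹) ^ 2 * (E * s ^ 2 * cd (gr 7 σ) k y) :=
        mul_le_mul_of_nonneg_left h2 (sq_nonneg _)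
    _ = E * cd (gr 7 σ) k y := by
        field_simp

theorem SU.scale {r : Fin 4} {F : ℤ → ℝ} {d dc s : ℝ} (hs : 0 < s) (h : SU σ r d ud F)
    (hd : d ≤ dc * s) : SU σ r dc ud (fun y => s⁻¹ * F y) := by
  intro k y hy u
  rw [dot_smul_left', abs_mul, abs_of_pos (inv_pos.2 hs), inv_mul_le_iff₀ hs, ← wP_mul]
  refine (h k y hy u).trans (wP_mono (by linarith) _ _)

/-- a scalar-uniform companion is admissible after division by `s` -/
theorem ok_stcP (r : Fin 4) {dc : ℝ} (hdc : 0 < dc) {E : ℝ} (hE : 0 ≤ E)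
    (hR : Rgn (gr 7 σ) gd Λ x ud) {𝒲 : Finset (ℕ × ℤ)} (hW : Nd σ ud 𝒲) {F : ℤ → ℝ}
    {e d s : ℝ} (hs : 0 < s) (hF : En (gr 7 σ) ud F e) (hU : SU σ r d ud F) (hd : d ≤ dc * s)
    (he : e ≤ E * s ^ 2) :
    (stcP 7 σ (fc r) (csz_fc_7 r) dc hdc E hE).ok Λ ((gr 7 σ).cube Λ x) 𝒲
      fun _ y => s⁻¹ * F y := by
  refine ok_stc (sysP 7 σ (fc r) (csz_fc_7 r) dc hdc) one_le_CgP (mixed_sysP (csz_fc_7 r) hdc) hE hR
    hW (F := fun y => s⁻¹ * F y) (en_scale hs hF he) fun k y hy i => ?_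
  rw [one_mul]
  exact hU.scale hs hd k y hy i

/-- an arbitrary companion is admissible after division by `s` -/
theorem ok_l2c' {E : ℝ} (hE : 0 ≤ E) (hR : Rgn (gr 7 σ) gd Λ x ud) {𝒲 : Finset (ℕ × ℤ)}
    (hW : Nd σ ud 𝒲) {F : ℤ → ℝ} {e s : ℝ} (hs : 0 < s) (hF : En (gr 7 σ) ud F e)
    (he : e ≤ E * s ^ 2) :
    (l2c (gr 7 σ) E hE).ok Λ ((gr 7 σ).cube Λ x) 𝒲 fun _ y => s⁻¹ * F y :=
  ok_l2c hE hR hW (en_scale hs hF he)

/-- the killed form of the uniformity -/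
theorem usl_of_su {r : Fin 4} {d : ℝ} {F : ℤ → ℝ} (h : SU σ r d ud F) :
    USl 7 σ (alR Λ ud) Λ (fc r) d F := fun k _ hk s hs q u => h k s (hs hk) (q, u)

end region

/-! ### The generic half -/

theorem erase_of_nodup : ∀ m a b d : Fin 4, [m, a, b, d].Nodup → univ.erase m = {a, b, d} := by
  decide

theorem prod_of_nodup {m a b d : Fin 4} (h : [m, a, b, d].Nodup) (s : Fin 4 → ℝ) :
    ∏ l ∈ univ.erase m, s l = s a * s b * s d := by
  rw [erase_of_nodup m a b d h]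
  simp only [List.nodup_cons, List.mem_cons, List.not_mem_nil, not_or, or_false,
    List.nodup_nil, and_true, not_false_eq_true] at h
  obtain ⟨⟨_, _, _⟩, ⟨h2, h3⟩, h4⟩ := h
  rw [prod_insert (by simp [h2, h3]), prod_insert (by simp [h4]), prod_singleton, mul_assoc]

section gen

variable {σ : ℤ} {gd ud : ℕ → ℤ → Prop} {Λ : ℕ} {x : ℤ} {ι : Type*}

/-- **A generic atom with two uniform companions and an arbitrary one**, positive third number. -/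
theorem gen_half_pos (P : PSys (gr 7 σ) ι) {κ : Fin 4 → Cls (gr 7 σ)} {o : ℤ}
    (ho : o = 1 ∨ o = -1) {m a b d : Fin 4} (hn : [m, a, b, d].Nodup) {dc : ℝ} (hdc : 0 < dc)
    {E : ℝ} (hE : 0 ≤ E) (hκd : κ d = l2c (gr 7 σ) E hE)
    (hκ : ∀ l, l ≠ d → κ l = stcP 7 σ (fc l) (csz_fc_7 l) dc hdc E hE) {c : ℝ} (hc : 0 ≤ c)
    (hcost : ∀ i, P.live Λ i → cost κ o m (P.ψ i) Λ ((gr 7 σ).cube Λ x) ≤
      c * P.W Λ ((gr 7 σ).cube Λ x) i) (hR : Rgn (gr 7 σ) gd Λ x ud) {𝒲 : Finset (ℕ × ℤ)}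
    (hW : Nd σ ud 𝒲) {f : Fin 4 → ℤ → ℝ} {ea da sa eb db sb ez sd : ℝ} (hsa : 0 < sa)
    (hEa : En (gr 7 σ) ud (f a) ea) (hUa : SU σ a da ud (f a)) (ha1 : da ≤ dc * sa)
    (ha2 : ea ≤ E * sa ^ 2) (hsb : 0 < sb) (hEb : En (gr 7 σ) ud (f b) eb)
    (hUb : SU σ b db ud (f b)) (hb1 : db ≤ dc * sb) (hb2 : eb ≤ E * sb ^ 2) (hsd : 0 < sd)
    (hEd : En (gr 7 σ) ud (f d) ez) (hd2 : ez ≤ E * sd ^ 2) {j : ℕ} (hj : Λ ≤ j) (i : ι) :
    ∑ N ∈ 𝒲, |wN o (Function.update f m (P.toC.a j i)) N| ≤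
      sa * sb * sd * (c * P.W Λ ((gr 7 σ).cube Λ x) i) := by
  have hn' := hn
  simp only [List.nodup_cons, List.mem_cons, List.not_mem_nil, not_or, or_false,
    List.nodup_nil, and_true, not_false_eq_true] at hn'
  obtain ⟨⟨hma, hmb, hmd⟩, ⟨hab, had⟩, hbd⟩ := hn'
  set s : Fin 4 → ℝ := fun l => if l = a then sa else if l = b then sb else if l = d then sd else 1
    with hs
  have hs1 : s a = sa := by simp [hs]
  have hs2 : s b = sb := by simp [hs, Ne.symm hab]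
  have hs3 : s d = sd := by simp [hs, Ne.symm had, Ne.symm hbd]
  have hpos : ∀ l, 0 < s l := by
    intro l
    simp only [hs]
    split_ifs
    · exact hsa
    · exact hsb
    · exact hsd
    · exact one_pos
  have key := sum_pay_psys P κ ho m hc hcost (blw_of_nd hR hW) (h := f) (s := s) hpos ?_ hj i
  · rw [prod_of_nodup hn, hs1, hs2, hs3] at key
    exact key
  · intro l hl
    have hl' : l ∈ ({a, b, d} : Finset (Fin 4)) := by
      rw [← erase_of_nodup m a b d hn]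
      exact mem_erase.2 ⟨hl, mem_univ _⟩
    simp only [mem_insert, mem_singleton] at hl'
    rcases hl' with h | h | h
    · rw [h, hκ a had, hs1]
      exact ok_stcP a hdc hE hR hW hsa hEa hUa ha1 ha2
    · rw [h, hκ b hbd, hs2]
      exact ok_stcP b hdc hE hR hW hsb hEb hUb hb1 hb2
    · rw [h, hκd, hs3]
      exact ok_l2c' hE hR hW hsd hEd hd2

/-- **A generic atom with two uniform companions and an arbitrary one.** -/
theorem gen_half (P : PSys (gr 7 σ) ι) {κ : Fin 4 → Cls (gr 7 σ)} {o : ℤ}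
    (ho : o = 1 ∨ o = -1) {m a b d : Fin 4} (hn : [m, a, b, d].Nodup) {dc : ℝ} (hdc : 0 < dc)
    {E : ℝ} (hE : 0 ≤ E) (hE1 : 1 ≤ E) (hκd : κ d = l2c (gr 7 σ) E hE)
    (hκ : ∀ l, l ≠ d → κ l = stcP 7 σ (fc l) (csz_fc_7 l) dc hdc E hE) {c : ℝ} (hc : 0 ≤ c)
    (hcost : ∀ i, P.live Λ i → cost κ o m (P.ψ i) Λ ((gr 7 σ).cube Λ x) ≤
      c * P.W Λ ((gr 7 σ).cube Λ x) i) (hR : Rgn (gr 7 σ) gd Λ x ud) {𝒲 : Finset (ℕ × ℤ)}
    (hW : Nd σ ud 𝒲) {f : Fin 4 → ℤ → ℝ} {ea da sa eb db sb ez : ℝ} (hsa : 0 < sa)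
    (hEa : En (gr 7 σ) ud (f a) ea) (hUa : SU σ a da ud (f a)) (ha1 : da ≤ dc * sa)
    (ha2 : ea ≤ E * sa ^ 2) (hsb : 0 < sb) (hEb : En (gr 7 σ) ud (f b) eb)
    (hUb : SU σ b db ud (f b)) (hb1 : db ≤ dc * sb) (hb2 : eb ≤ E * sb ^ 2) (hez : 0 ≤ ez)
    (hEd : En (gr 7 σ) ud (f d) ez) {j : ℕ} (hj : Λ ≤ j) (i : ι) :
    ∑ N ∈ 𝒲, |wN o (Function.update f m (P.toC.a j i)) N| ≤
      sa * sb * c * √ez * P.W Λ ((gr 7 σ).cube Λ x) i := by
  have key : ∀ η : ℝ, 0 < η → ∑ N ∈ 𝒲, |wN o (Function.update f m (P.toC.a j i)) N| ≤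
      sa * sb * c * (√ez + η) * P.W Λ ((gr 7 σ).cube Λ x) i := by
    intro η hη
    have h1 : 0 < √ez + η := by positivity
    have h2 : ez ≤ E * (√ez + η) ^ 2 := by
      have h3 : ez ≤ (√ez + η) ^ 2 := by
        have h4 := Real.sq_sqrt hez
        nlinarith [Real.sqrt_nonneg ez]
      nlinarith [sq_nonneg (√ez + η)]
    have h5 := gen_half_pos P ho hn hdc hE hκd hκ hc hcost hR hW hsa hEa hUa ha1 ha2 hsb hEb hUb
      hb1 hb2 h1 hEd h2 hj i
    refine h5.trans (le_of_eq ?_)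
    ring
  refine le_of_forall_pos_le_add fun ε hε => ?_
  have h0 : 0 ≤ sa * sb * c * P.W Λ ((gr 7 σ).cube Λ x) i :=
    mul_nonneg (by positivity) (P.W_nonneg _ _ _)
  set B : ℝ := sa * sb * c * P.W Λ ((gr 7 σ).cube Λ x) i with hB
  have h1 := key (ε / (B + 1)) (by positivity)
  refine h1.trans ?_
  have h2 : sa * sb * c * (√ez + ε / (B + 1)) * P.W Λ ((gr 7 σ).cube Λ x) i =
      sa * sb * c * √ez * P.W Λ ((gr 7 σ).cube Λ x) i + ε * (B / (B + 1)) := by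
    rw [hB]
    ring
  rw [h2]
  have h3 : B / (B + 1) ≤ 1 := (div_le_one (by positivity)).2 (by linarith)
  nlinarith

end gen

/-! ### The scalar half from (E) -/

/-- the price of (E) with an arbitrary third companion -/
theorem prE_eq (ε ta tb ea eb ez : ℝ) : Vale.Agent.P141.H48.prE ε ta tb ea eb ez =
    (ta * tb) ^ (1 / 2 - ε) * (ea * eb) ^ (1 / 4 + ε / 2) * √ez := by
  unfold Vale.Agent.P141.H48.prE
  rw [← Real.sqrt_eq_rpow]

/-- **(E) on a region**: two scalar-uniform companions, an arbitrary third one. -/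
theorem scal_half_en {C ε : ℝ} (hE : EnOut C ε) {σ : ℤ} {gd ud : ℕ → ℤ → Prop} {Λ : ℕ} {x : ℤ}
    (hR : Rgn (gr 7 σ) gd Λ x ud) {o : ℤ} (ho : o = 1 ∨ o = -1) {m a b d : Fin 4}
    (hn : [m, a, b, d].Nodup) {f : Fin 4 → ℤ → ℝ} {ea da eb db ez : ℝ} (hda : 0 ≤ da)
    (hda2 : da ^ 2 ≤ ea) (hdb : 0 ≤ db) (hdb2 : db ^ 2 ≤ eb) (hez : 0 ≤ ez)
    (hEa : En (gr 7 σ) ud (f a) ea) (hUa : SU σ a da ud (f a)) (hEb : En (gr 7 σ) ud (f b) eb)
    (hUb : SU σ b db ud (f b)) (hEd : En (gr 7 σ) ud (f d) ez) :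
    ∀ K ≤ Λ, CostR m o K (C * ((da * db) ^ (1 / 2 - ε) * (ea * eb) ^ (1 / 4 + ε / 2)) * √ez)
      (fun K p u => wP 1 (cube3 K p) u) fun k _ j => kl (alR Λ ud) (f j) k := by
  intro K hK
  have key := hE σ _ (alv_alR hR) Λ f m a b d hn da ea db eb ez hda hda2 hdb hdb2 hez
    (esl_alR hEa) (usl_of_su hUa) (esl_alR hEb) (usl_of_su hUb) (esl_alR hEd) o ho K hK
  rw [prE_eq] at key
  have e1 : C * ((da * db) ^ (1 / 2 - ε) * (ea * eb) ^ (1 / 4 + ε / 2)) * √ez =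
      C * ((da * db) ^ (1 / 2 - ε) * (ea * eb) ^ (1 / 4 + ε / 2) * √ez) := by ring
  rw [e1]
  exact key

end

end Vale.Agent.P141.H444
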